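import Vale.Agent.H29.Bloch.State

set_option linter.unusedSectionVars false
set_option linter.unusedSimpArgs false

namespace Vale.Agent.H29.Bloch

open Matrix Finset Vale.Agent.H29.BlochDefs

section NN

/-- entrywise nonnegative real -/
def NNM {ι : Type} (A : Matrix ι ι ℂ) : Prop := ∀ i j, ∃ r : ℝ, 0 ≤ r ∧ A i j = r

theorem NNM.mul {ι : Type} [Fintype ι] {A B : Matrix ι ι ℂ} (hA : NNM A) (hB : NNM B) :
    NNM (A * B) := by
  intro i j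
  choose a ha1 ha2 using hA
  choose b hb1 hb2 using hB
  refine ⟨∑ k, a i k * b k j, Finset.sum_nonneg fun k _ => mul_nonneg (ha1 _ _) (hb1 _ _), ?_⟩
  rw [Matrix.mul_apply]
  push_cast
  exact Finset.sum_congr rfl fun k _ => by rw [ha2, hb2]

theorem NNM.add {ι : Type} {A B : Matrix ι ι ℂ} (hA : NNM A) (hB : NNM B) : NNM (A + B) := by
  intro i j
  obtain ⟨a, ha1, ha2⟩ := hA i j
  obtain ⟨b, hb1, hb2⟩ := hB i j
  exact ⟨a + b, add_nonneg ha1 hb1, by rw [Matrix.add_apply, ha2, hb2]; push_cast; rfl⟩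

theorem NNM.smul {ι : Type} {A : Matrix ι ι ℂ} (hA : NNM A) {c : ℝ} (hc : 0 ≤ c) :
    NNM ((c : ℂ) • A) := by
  intro i j
  obtain ⟨a, ha1, ha2⟩ := hA i j
  exact ⟨c * a, mul_nonneg hc ha1, by rw [Matrix.smul_apply, ha2, smul_eq_mul]; push_cast; rfl⟩

theorem NNM_sPlus (J : ℕ) : NNM (sPlus J) := by
  intro i j
  simp only [sPlus]
  split_ifs
  · exact ⟨_, Real.sqrt_nonneg _, rfl⟩
  · exact ⟨0, le_refl _, by simp⟩

theorem NNM.conj {ι : Type} {A : Matrix ι ι ℂ} (hA : NNM A) : NNM Aᴴ := by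
  intro i j
  obtain ⟨a, ha1, ha2⟩ := hA j i
  exact ⟨a, ha1, by rw [Matrix.conjTranspose_apply, ha2]; simp⟩

theorem NNM.on {J : ℕ} {V : Type} [Fintype V] [DecidableEq V]
    {A : Matrix (Fin (J + 1)) (Fin (J + 1)) ℂ} (hA : NNM A) (x : V) :
    NNM (onSite x A : Matrix (Conf J V) (Conf J V) ℂ) := by
  intro σ τ
  simp only [onSite]
  split_ifs
  · exact hA _ _
  · exact ⟨0, le_refl _, by simp⟩

end NN

section Dot

variable {J : ℕ} {V : Type} [Fintype V] [DecidableEq V]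

theorem P_cv (x : V) : P J x *ᵥ (fun σ => (cv J V σ : ℂ))
    = fun σ => (((J : ℝ) - ((σ x : ℕ) : ℝ) : ℝ) : ℂ) * (cv J V σ : ℂ) :=
  on_cv x _ _ plus_et

theorem Mi_cv (x : V) : Mi J x *ᵥ (fun σ => (cv J V σ : ℂ))
    = fun σ => ((((σ x : ℕ) : ℝ) : ℝ) : ℂ) * (cv J V σ : ℂ) :=
  on_cv x _ _ minus_et

theorem Z3_eq (x : V) : Z3 J x
    = diagonal fun σ : Conf J V => (((J : ℝ) / 2 - ((σ x : ℕ) : ℝ) : ℝ) : ℂ) := by
  rw [Z3, s3, on_diagonal]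

theorem P_diag_cv {x y : V} (hxy : x ≠ y) (f : Fin (J + 1) → ℂ) :
    P J x *ᵥ (fun σ => f (σ y) * (cv J V σ : ℂ))
      = fun σ => f (σ y) * ((((J : ℝ) - ((σ x : ℕ) : ℝ) : ℝ) : ℂ) * (cv J V σ : ℂ)) := by
  have e1 : (fun σ : Conf J V => f (σ y) * (cv J V σ : ℂ))
      = (onSite y (diagonal f)) *ᵥ (fun σ => (cv J V σ : ℂ)) := by
    rw [on_diagonal]; funext σ; rw [Matrix.mulVec_diagonal]
  rw [e1, Matrix.mulVec_mulVec, P, on_comm hxy, ← Matrix.mulVec_mulVec]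
  have e2 := P_cv (J := J) x
  rw [P] at e2
  rw [e2, on_diagonal]
  funext σ
  rw [Matrix.mulVec_diagonal]

theorem Mi_diag_cv {x y : V} (hxy : x ≠ y) (f : Fin (J + 1) → ℂ) :
    Mi J x *ᵥ (fun σ => f (σ y) * (cv J V σ : ℂ))
      = fun σ => f (σ y) * ((((σ x : ℕ) : ℝ) : ℂ) * (cv J V σ : ℂ)) := by
  have e1 : (fun σ : Conf J V => f (σ y) * (cv J V σ : ℂ))
      = (onSite y (diagonal f)) *ᵥ (fun σ => (cv J V σ : ℂ)) := by
    rw [on_diagonal]; funext σ; rw [Matrix.mulVec_diagonal]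
  rw [e1, Matrix.mulVec_mulVec, Mi, on_comm hxy, ← Matrix.mulVec_mulVec]
  have e2 := Mi_cv (J := J) x
  rw [Mi] at e2
  rw [e2, on_diagonal]
  funext σ
  rw [Matrix.mulVec_diagonal]

theorem dot_cv {x y : V} (hxy : x ≠ y) : dotSS J x y *ᵥ (fun σ => (cv J V σ : ℂ))
    = fun σ => (((J : ℝ) ^ 2 / 4 : ℝ) : ℂ) * (cv J V σ : ℂ) := by
  rw [dot_eq, Matrix.add_mulVec, Matrix.smul_mulVec, Matrix.add_mulVec, ← Matrix.mulVec_mulVec,
    ← Matrix.mulVec_mulVec, ← Matrix.mulVec_mulVec, P_cv, Mi_cv]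
  have h1 := P_diag_cv hxy (fun a : Fin (J + 1) => ((((a : ℕ) : ℝ) : ℝ) : ℂ))
  have h2 := Mi_diag_cv hxy (fun a : Fin (J + 1) => (((J : ℝ) - ((a : ℕ) : ℝ) : ℝ) : ℂ))
  rw [h1, h2, Z3_eq, Z3_eq]
  funext σ
  simp only [Pi.add_apply, Pi.smul_apply, Matrix.mulVec_diagonal, smul_eq_mul]
  push_cast
  ring

theorem dot_herm {x y : V} (hxy : x ≠ y) : (dotSS J x y : Matrix (Conf J V) (Conf J V) ℂ)ᴴ
    = dotSS J x y := by
  rw [dot_eq, Matrix.conjTranspose_add, Matrix.conjTranspose_smul, Matrix.conjTranspose_add,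
    Matrix.conjTranspose_mul, Matrix.conjTranspose_mul, Matrix.conjTranspose_mul, P_conj, P_conj,
    Mi_conj, Mi_conj, Z3_conj, Z3_conj]
  have t := two_sites (J := J) hxy
  rw [t.c9, t.c4, t.c2, add_comm (Mi J x * P J y)]
  congr 2
  simp

theorem dot_form {x y : V} (hxy : x ≠ y) (φ : Conf J V → ℂ) :
    0 ≤ (star φ ⬝ᵥ ((((((J : ℝ) ^ 2 / 4 : ℝ) : ℂ) • (1 : Matrix (Conf J V) (Conf J V) ℂ))
      - dotSS J x y) *ᵥ φ)).re := by
  have hN : NNM ((((1 / 2 : ℝ) : ℂ)) • (P J x * Mi J y + Mi J x * P J y)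
      : Matrix (Conf J V) (Conf J V) ℂ) :=
    (((NNM_sPlus J).on x |>.mul ((NNM_sPlus J).conj.on y)).add
      (((NNM_sPlus J).conj.on x).mul ((NNM_sPlus J).on y))).smul (by norm_num)
  choose r hr1 hr2 using hN
  set zz : Conf J V → ℝ := fun σ => ((J : ℝ) / 2 - ((σ x : ℕ) : ℝ))
    * ((J : ℝ) / 2 - ((σ y : ℕ) : ℝ)) with hzz
  have hX : ((((J : ℝ) ^ 2 / 4 : ℝ) : ℂ) • (1 : Matrix (Conf J V) (Conf J V) ℂ)) - dotSS J x y
      = fun σ τ => (((if σ = τ then (J : ℝ) ^ 2 / 4 - zz σ else 0) - r σ τ : ℝ) : ℂ) := by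
    ext σ τ
    rw [dot_eq, Matrix.sub_apply, Matrix.add_apply]
    have e1 : ((1 / 2 : ℂ) • (P J x * Mi J y + Mi J x * P J y)) σ τ = (r σ τ : ℂ) := by
      rw [← hr2]; norm_num
    rw [e1, Z3_eq, Z3_eq, Matrix.diagonal_mul_diagonal, Matrix.diagonal_apply, Matrix.smul_apply,
      Matrix.one_apply]
    split_ifs with h
    · simp only [hzz, smul_eq_mul, mul_one]; push_cast; ring
    · push_cast; simp
  rw [hX]
  have hherm : ((((J : ℝ) ^ 2 / 4 : ℝ) : ℂ) • (1 : Matrix (Conf J V) (Conf J V) ℂ)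
      - dotSS J x y)ᴴ = (((J : ℝ) ^ 2 / 4 : ℝ) : ℂ) • (1 : Matrix (Conf J V) (Conf J V) ℂ)
      - dotSS J x y := by
    rw [Matrix.conjTranspose_sub, dot_herm hxy, Matrix.conjTranspose_smul,
      Matrix.conjTranspose_one]
    congr 2
    simp
  refine schur (v := cv J V) ?_ ?_ cv_pos ?_ φ
  · intro σ τ
    have h := congrFun (congrFun hherm σ) τ
    rw [Matrix.conjTranspose_apply, congrFun (congrFun hX σ) τ, congrFun (congrFun hX τ) σ] at h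
    have h2 : (((if τ = σ then (J : ℝ) ^ 2 / 4 - zz τ else 0) - r τ σ : ℝ) : ℂ)
        = (((if σ = τ then (J : ℝ) ^ 2 / 4 - zz σ else 0) - r σ τ : ℝ) : ℂ) := by
      rw [← h]; simp
    have h3 : (if τ = σ then (J : ℝ) ^ 2 / 4 - zz τ else 0) - r τ σ
        = (if σ = τ then (J : ℝ) ^ 2 / 4 - zz σ else 0) - r σ τ := by exact_mod_cast h2
    exact h3.symm
  · intro σ τ hne
    rw [if_neg hne]
    linarith [hr1 σ τ]
  · intro σ
    have h := congrFun (dot_cv (J := J) hxy) σ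
    have h2 : (((((J : ℝ) ^ 2 / 4 : ℝ) : ℂ) • (1 : Matrix (Conf J V) (Conf J V) ℂ)
      - dotSS J x y) *ᵥ (fun σ => (cv J V σ : ℂ))) σ = 0 := by
      rw [Matrix.sub_mulVec, Pi.sub_apply, h, Matrix.smul_mulVec, Matrix.one_mulVec,
        Pi.smul_apply, smul_eq_mul, sub_self]
    rw [hX] at h2
    simp only [Matrix.mulVec, dotProduct] at h2
    have h3 : ((∑ τ, ((if σ = τ then (J : ℝ) ^ 2 / 4 - zz σ else 0) - r σ τ) * cv J V τ : ℝ) : ℂ)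
        = 0 := by
      rw [← h2]; push_cast; rfl
    exact_mod_cast h3

theorem Ex_dot_le {K : Matrix (Conf J V) (Conf J V) ℂ} (hK : K.IsHermitian) {x y : V}
    (hxy : x ≠ y) : Ex K (dotSS J x y) ≤ (J : ℝ) ^ 2 / 4 * Ex K 1 := by
  have := Ex_nonneg hK (dot_form (J := J) hxy)
  rw [Ex_sub, Ex_smul] at this
  linarith

theorem Ex_diag_nonneg {K : Matrix (Conf J V) (Conf J V) ℂ} (hK : K.IsHermitian)
    {d : Conf J V → ℝ} (hd : ∀ i, 0 ≤ d i) : 0 ≤ Ex K (diagonal fun i => (d i : ℂ)) :=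
  Ex_nonneg hK (diag_form hd)

theorem cast_le (a : Fin (J + 1)) : ((a : ℕ) : ℝ) ≤ J := by
  exact_mod_cast Nat.lt_succ_iff.mp a.2

theorem Ex_ZZ_le {K : Matrix (Conf J V) (Conf J V) ℂ} (hK : K.IsHermitian) (x y : V) :
    Ex K (Z3 J x * Z3 J y) ≤ (J : ℝ) ^ 2 / 4 * Ex K 1 := by
  have h : (((J : ℝ) ^ 2 / 4 : ℝ) : ℂ) • (1 : Matrix (Conf J V) (Conf J V) ℂ)
      - Z3 J x * Z3 J y = diagonal fun σ : Conf J V => (((J : ℝ) ^ 2 / 4
        - ((J : ℝ) / 2 - ((σ x : ℕ) : ℝ)) * ((J : ℝ) / 2 - ((σ y : ℕ) : ℝ)) : ℝ) : ℂ) := by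
    rw [Z3_eq, Z3_eq, Matrix.diagonal_mul_diagonal, ← Matrix.diagonal_one, ← Matrix.diagonal_smul,
      Matrix.diagonal_sub]
    congr 1; funext σ
    simp only [Pi.smul_apply, smul_eq_mul, mul_one]; push_cast; ring
  have h2 := Ex_diag_nonneg hK (d := fun σ : Conf J V => (J : ℝ) ^ 2 / 4
        - ((J : ℝ) / 2 - ((σ x : ℕ) : ℝ)) * ((J : ℝ) / 2 - ((σ y : ℕ) : ℝ))) (fun σ => by
    have h1 := cast_le (σ x)
    have h2 := cast_le (σ y)
    have h3 : (0 : ℝ) ≤ ((σ x : ℕ) : ℝ) := by positivity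
    have h4 : (0 : ℝ) ≤ ((σ y : ℕ) : ℝ) := by positivity
    have h5 : |((J : ℝ) / 2 - ((σ x : ℕ) : ℝ))| ≤ J / 2 := by rw [abs_le]; constructor <;> linarith
    have h6 : |((J : ℝ) / 2 - ((σ y : ℕ) : ℝ))| ≤ J / 2 := by rw [abs_le]; constructor <;> linarith
    have h7 := mul_le_mul h5 h6 (abs_nonneg _) (by positivity)
    rw [← abs_mul] at h7
    have h8 := le_abs_self (((J : ℝ) / 2 - ((σ x : ℕ) : ℝ)) * ((J : ℝ) / 2 - ((σ y : ℕ) : ℝ)))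
    nlinarith)
  rw [← h, Ex_sub, Ex_smul] at h2
  linarith

theorem Ex_Z_le {K : Matrix (Conf J V) (Conf J V) ℂ} (hK : K.IsHermitian) (x : V) :
    Ex K (Z3 J x) ≤ (J : ℝ) / 2 * Ex K 1 := by
  have h : (((J : ℝ) / 2 : ℝ) : ℂ) • (1 : Matrix (Conf J V) (Conf J V) ℂ)
      - Z3 J x = diagonal fun σ : Conf J V => ((((σ x : ℕ) : ℝ) : ℝ) : ℂ) := by
    rw [Z3_eq, ← Matrix.diagonal_one, ← Matrix.diagonal_smul, Matrix.diagonal_sub]
    congr 1; funext σ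
    simp only [Pi.smul_apply, smul_eq_mul, mul_one]; push_cast; ring
  have h2 := Ex_diag_nonneg hK (d := fun σ : Conf J V => (((σ x : ℕ) : ℝ))) (fun σ => by positivity)
  rw [← h, Ex_sub, Ex_smul] at h2
  linarith

theorem Ex_MP_le {K : Matrix (Conf J V) (Conf J V) ℂ} (hK : K.IsHermitian) (x : V) :
    Ex K (Mi J x * P J x) ≤ J * ((J : ℝ) / 2 * Ex K 1 - Ex K (Z3 J x)) := by
  have h : ((J : ℝ) : ℂ) • ((((J : ℝ) / 2 : ℝ) : ℂ) • (1 : Matrix (Conf J V) (Conf J V) ℂ)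
      - Z3 J x) - Mi J x * P J x
      = diagonal fun σ : Conf J V => ((((σ x : ℕ) : ℝ) * (((σ x : ℕ) : ℝ) - 1) : ℝ) : ℂ) := by
    rw [Mi, P, on_mul, minus_plus, on_diagonal, Z3_eq, ← Matrix.diagonal_one,
      ← Matrix.diagonal_smul, Matrix.diagonal_sub, ← Matrix.diagonal_smul, Matrix.diagonal_sub]
    congr 1; funext σ
    simp only [Pi.smul_apply, smul_eq_mul, mul_one]; push_cast; ring
  have h2 := Ex_diag_nonneg hK
    (d := fun σ : Conf J V => ((σ x : ℕ) : ℝ) * (((σ x : ℕ) : ℝ) - 1)) (fun σ => by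
    rcases Nat.eq_zero_or_pos (σ x : ℕ) with h | h
    · rw [h]; simp
    · have : (1 : ℝ) ≤ ((σ x : ℕ) : ℝ) := by exact_mod_cast h
      exact mul_nonneg (by positivity) (by linarith))
  rw [← h, Ex_sub, Ex_smul, Ex_sub, Ex_smul] at h2
  linarith

end Dot

end Vale.Agent.H29.Bloch
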