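import Vale.Agent.H29.Bloch.Fbs

set_option linter.unusedSectionVars false
set_option linter.unusedSimpArgs false

namespace Vale.Agent.H29.Bloch

open Matrix Finset Vale.Agent.H29.BlochDefs

section Fourier

theorem geom_root {L : ℕ} (hL : 0 < L) (d : ℤ) (hd : |d| < L) :
    ∑ m : Fin L, (Complex.exp (2 * Real.pi * Complex.I * d / L)) ^ (m : ℕ)
      = if d = 0 then (L : ℂ) else 0 := by
  have hL' : (L : ℂ) ≠ 0 := by exact_mod_cast hL.ne'
  split_ifs with h
  · subst h; simp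
  · set z := Complex.exp (2 * Real.pi * Complex.I * d / L) with hz
    have hz1 : z ≠ 1 := by
      intro h1
      rw [hz, Complex.exp_eq_one_iff] at h1
      obtain ⟨n, hn⟩ := h1
      have hpi : (2 * Real.pi * Complex.I : ℂ) ≠ 0 := Complex.two_pi_I_ne_zero
      have h2 : (d : ℂ) = n * L := by
        have h3 : 2 * Real.pi * Complex.I * (d : ℂ) = 2 * Real.pi * Complex.I * (n * L) := by
          rw [div_eq_iff hL'] at hn
          rw [hn]; ring
        exact mul_left_cancel₀ hpi h3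
      have h3 : d = n * L := by exact_mod_cast h2
      have hn0 : n ≠ 0 := by
        rintro rfl; apply h; rw [h3]; ring
      have : (L : ℤ) ≤ |d| := by
        rw [h3, abs_mul]
        have h4 : (1 : ℤ) ≤ |n| := Int.one_le_abs hn0
        have h5 : |(L : ℤ)| = L := abs_of_nonneg (by positivity)
        rw [h5]; nlinarith
      omega
    have hzL : z ^ L = 1 := by
      rw [hz, ← Complex.exp_nat_mul]
      have : (L : ℂ) * (2 * Real.pi * Complex.I * d / L) = d * (2 * Real.pi * Complex.I) := by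
        field_simp
      rw [this, Complex.exp_int_mul_two_pi_mul_I]
    rw [Fin.sum_univ_eq_sum_range (fun m => z ^ m), geom_sum_eq hz1, hzL]
    simp

variable {N : ℕ}

/-- phase -/
noncomputable def ph (k x : Box N) : ℝ :=
  ∑ j, 2 * Real.pi * ((k j : ℕ) : ℝ) * ((x j : ℕ) : ℝ) / (2 * N + 1 : ℕ)

theorem complete (x y : Box N) :
    ∑ k : Box N, Real.cos (ph k x - ph k y) = if x = y then ((2 * N + 1 : ℕ) : ℝ) ^ 3 else 0 := by
  set L := 2 * N + 1 with hL
  have hL0 : 0 < L := by omega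
  set d : Fin 3 → ℤ := fun j => ((x j : ℕ) : ℤ) - ((y j : ℕ) : ℤ) with hd
  have h1 : ∀ k : Box N, (Real.cos (ph k x - ph k y) : ℝ)
      = (∏ j, (Complex.exp (2 * Real.pi * Complex.I * d j / L)) ^ ((k j : ℕ))).re := by
    intro k
    have : ∏ j, (Complex.exp (2 * Real.pi * Complex.I * d j / L)) ^ ((k j : ℕ))
        = Complex.exp (((ph k x - ph k y : ℝ) : ℂ) * Complex.I) := by
      simp only [← Complex.exp_nat_mul]
      rw [← Complex.exp_sum]
      congr 1
      rw [ph, ph, ← Finset.sum_sub_distrib]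
      push_cast
      rw [Finset.sum_mul]
      refine Finset.sum_congr rfl fun j _ => ?_
      simp only [hd]
      have hLc : (L : ℂ) = 2 * (N : ℂ) + 1 := by rw [hL]; push_cast; ring
      push_cast
      rw [hLc]
      ring
    rw [this, Complex.exp_ofReal_mul_I_re]
  simp only [h1]
  rw [← Complex.re_sum]
  have h2 : ∑ k : Box N, ∏ j, (Complex.exp (2 * Real.pi * Complex.I * d j / L)) ^ ((k j : ℕ))
      = ∏ j, ∑ m : Fin L, (Complex.exp (2 * Real.pi * Complex.I * d j / L)) ^ (m : ℕ) := by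
    rw [Finset.prod_univ_sum]
    simp only [Fintype.piFinset_univ]
    rfl
  rw [h2]
  have h3 : ∀ j, ∑ m : Fin L, (Complex.exp (2 * Real.pi * Complex.I * d j / L)) ^ (m : ℕ)
      = if d j = 0 then (L : ℂ) else 0 := by
    intro j
    apply geom_root hL0
    simp only [hd]
    have := (x j).2
    have := (y j).2
    rw [abs_lt]; constructor <;> omega
  simp only [h3]
  split_ifs with hxy
  · subst hxy
    have : ∀ j, d j = 0 := fun j => by simp [hd]
    simp only [this, if_true, Finset.prod_const, Finset.card_univ, Fintype.card_fin]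
    rw [← Complex.ofReal_natCast, ← Complex.ofReal_pow, Complex.ofReal_re]
  · obtain ⟨j, hj⟩ := Function.ne_iff.mp hxy
    have : d j ≠ 0 := by
      simp only [hd]
      intro h
      apply hj
      ext
      omega
    rw [Finset.prod_eq_zero (Finset.mem_univ j)]
    · simp
    · simp [this]

end Fourier

section BoxI

variable {J N : ℕ}

noncomputable def EBox (N : ℕ) : Finset (Fin 3 × Box N × Box N) :=
  univ.filter fun e => Step e.1 e.2.1 e.2.2

theorem ham_eq : ham J N = HamE J (EBox N) (fun e => e.2.1) (fun e => e.2.2) := by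
  rw [ham, HamE]
  congr 1
  rw [EBox, Finset.sum_filter, ← Finset.univ_product_univ, Finset.sum_product]
  refine Finset.sum_congr rfl fun j _ => ?_
  rw [← Finset.univ_product_univ, Finset.sum_product]

theorem mag_eq : mag J N = MagV J (Box N) := rfl

theorem step_ne {j : Fin 3} {x y : Box N} (h : Step j x y) : x ≠ y := by
  intro he
  subst he
  have := h.1
  omega

theorem EBox_ne : ∀ e ∈ EBox N, (fun e : Fin 3 × Box N × Box N => e.2.1) e
    ≠ (fun e : Fin 3 × Box N × Box N => e.2.2) e := by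
  intro e he
  rw [EBox, Finset.mem_filter] at he
  exact step_ne he.2

noncomputable def KB (J N : ℕ) (β h : ℝ) : Matrix (Conf J (Box N)) (Conf J (Box N)) ℂ :=
  (β : ℂ) • (ham J N - (h : ℂ) • mag J N)

theorem KB_eq (β h : ℝ) : KB J N β h
    = KE J (EBox N) (fun e => e.2.1) (fun e => e.2.2) β h := by
  rw [KB, KE, ham_eq, mag_eq]

theorem KB_herm (β h : ℝ) : (KB J N β h).IsHermitian := by
  rw [KB_eq]; exact KE_herm EBox_ne β h

theorem ph_step {j : Fin 3} {x y : Box N} (h : Step j x y) (k : Box N) :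
    ph k y - ph k x = 2 * Real.pi * ((k j : ℕ) : ℝ) / (2 * N + 1 : ℕ) := by
  rw [ph, ph, ← Finset.sum_sub_distrib, Finset.sum_eq_single j]
  · have : ((y j : ℕ) : ℝ) = ((x j : ℕ) : ℝ) + 1 := by exact_mod_cast h.1
    rw [this]; ring
  · intro i _ hi
    rw [h.2 i hi]; ring
  · simp

theorem sum_EBox_le (f : Fin 3 → ℝ) (hf : ∀ j, 0 ≤ f j) :
    ∑ e ∈ EBox N, f e.1 ≤ ((2 * N + 1 : ℕ) : ℝ) ^ 3 * ∑ j, f j := by
  have hcard : (Fintype.card (Box N) : ℝ) = ((2 * N + 1 : ℕ) : ℝ) ^ 3 := by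
    simp [Box]
  rw [EBox, Finset.sum_filter, ← Finset.univ_product_univ, Finset.sum_product, Finset.mul_sum]
  refine Finset.sum_le_sum fun j _ => ?_
  rw [← Finset.univ_product_univ, Finset.sum_product]
  have h : ∀ x : Box N, ∑ y : Box N, (if Step j x y then f j else 0) ≤ f j := by
    intro x
    by_cases hex : ∃ y, Step j x y
    · obtain ⟨y0, hy0⟩ := hex
      rw [Finset.sum_eq_single y0]
      · rw [if_pos hy0]
      · intro y _ hy
        rw [if_neg]
        intro hs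
        apply hy
        funext i
        by_cases hi : i = j
        · subst hi
          ext
          rw [hs.1, hy0.1]
        · rw [hs.2 i hi, hy0.2 i hi]
      · simp
    · push Not at hex
      rw [Finset.sum_eq_zero]
      · exact hf j
      · intro y _; rw [if_neg (hex y)]
  refine (Finset.sum_le_sum fun x _ => h x).trans ?_
  rw [Finset.sum_const, Finset.card_univ, nsmul_eq_mul, hcard]

/-- kinetic symbol `∑ (1 - cos k_j)` -/
noncomputable def sym (k : Box N) : ℝ :=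
  ∑ j, (1 - Real.cos (2 * Real.pi * ((k j : ℕ) : ℝ) / (2 * N + 1 : ℕ)))

theorem sym_nonneg (k : Box N) : 0 ≤ sym k :=
  Finset.sum_nonneg fun j _ => by linarith [Real.cos_le_one (2 * Real.pi * ((k j : ℕ) : ℝ) / (2 * N + 1 : ℕ))]

theorem per_mode {β h θ : ℝ} (hβ : 0 ≤ β) (hθ : 0 < θ) (k : Box N) :
    (gam θ * θ + 1 / (Real.exp θ - 1)) * (2 * Ex (KB J N β h) (mag J N))
      - gam θ * (β * (((2 * N + 1 : ℕ) : ℝ) ^ 3 * (2 * sym k) * ((J : ℝ) ^ 2 / 2 * Ex (KB J N β h) 1)
        + h * (2 * Ex (KB J N β h) (mag J N))))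
      ≤ ∑ x, ∑ y, Real.cos (ph k x - ph k y) * Ex (KB J N β h) (Mi J x * P J y) := by
  have h1 := fb_spin (J := J) EBox_ne (h := h) hβ hθ (fun x : Box N => Real.cos (ph k x))
  have h2 := fb_spin (J := J) EBox_ne (h := h) hβ hθ (fun x : Box N => Real.sin (ph k x))
  rw [← KB_eq] at h1 h2
  set K := KB J N β h with hK
  have hγ : 0 ≤ gam θ := by unfold gam; positivity
  have hZ : 0 ≤ Ex K 1 := by
    have := Ex_diag_nonneg (J := J) (V := Box N) (KB_herm β h) (d := fun _ => 1) (fun _ => zero_le_one)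
    have e : (diagonal fun _ : Conf J (Box N) => ((1 : ℝ) : ℂ)) = 1 := by simp
    rwa [e] at this
  have e1 : ∑ x : Box N, 2 * Real.cos (ph k x) ^ 2 * Ex K (Z3 J x)
      + ∑ x : Box N, 2 * Real.sin (ph k x) ^ 2 * Ex K (Z3 J x) = 2 * Ex K (mag J N) := by
    rw [mag_eq, MagV, Ex_sum, Finset.mul_sum, ← Finset.sum_add_distrib]
    refine Finset.sum_congr rfl fun x _ => ?_
    have := Real.sin_sq_add_cos_sq (ph k x)
    have e : 2 * Real.cos (ph k x) ^ 2 * Ex K (Z3 J x) + 2 * Real.sin (ph k x) ^ 2 * Ex K (Z3 J x)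
        = 2 * (Real.sin (ph k x) ^ 2 + Real.cos (ph k x) ^ 2) * Ex K (Z3 J x) := by ring
    rw [e, this]; ring
  have e2 : ∑ e ∈ EBox N, (Real.cos (ph k e.2.1) - Real.cos (ph k e.2.2)) ^ 2
          * ((J : ℝ) ^ 2 / 2 * Ex K 1)
        + ∑ e ∈ EBox N, (Real.sin (ph k e.2.1) - Real.sin (ph k e.2.2)) ^ 2
          * ((J : ℝ) ^ 2 / 2 * Ex K 1)
      ≤ ((2 * N + 1 : ℕ) : ℝ) ^ 3 * (2 * sym k) * ((J : ℝ) ^ 2 / 2 * Ex K 1) := by
    rw [← Finset.sum_add_distrib]
    have e3 : ∀ e ∈ EBox N, (Real.cos (ph k e.2.1) - Real.cos (ph k e.2.2)) ^ 2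
          * ((J : ℝ) ^ 2 / 2 * Ex K 1)
        + (Real.sin (ph k e.2.1) - Real.sin (ph k e.2.2)) ^ 2 * ((J : ℝ) ^ 2 / 2 * Ex K 1)
        = (2 * (1 - Real.cos (2 * Real.pi * ((k e.1 : ℕ) : ℝ) / (2 * N + 1 : ℕ))))
          * ((J : ℝ) ^ 2 / 2 * Ex K 1) := by
      intro e he
      rw [EBox, Finset.mem_filter] at he
      rw [← ph_step he.2 k, Real.cos_sub, ← add_mul]
      congr 1
      have a1 := Real.sin_sq_add_cos_sq (ph k e.2.1)
      have a2 := Real.sin_sq_add_cos_sq (ph k e.2.2)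
      nlinarith
    rw [Finset.sum_congr rfl e3, ← Finset.sum_mul]
    refine mul_le_mul_of_nonneg_right ?_ (by positivity)
    refine (sum_EBox_le (fun j => 2 * (1 - Real.cos (2 * Real.pi * ((k j : ℕ) : ℝ) / (2 * N + 1 : ℕ))))
      (fun j => by linarith [Real.cos_le_one (2 * Real.pi * ((k j : ℕ) : ℝ) / (2 * N + 1 : ℕ))])).trans ?_
    rw [sym, ← Finset.mul_sum]
  have e4 : ∑ x, ∑ y, Real.cos (ph k x - ph k y) * Ex K (Mi J x * P J y)
      = ∑ x, ∑ y, Real.cos (ph k x) * Real.cos (ph k y) * Ex K (Mi J x * P J y)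
        + ∑ x, ∑ y, Real.sin (ph k x) * Real.sin (ph k y) * Ex K (Mi J x * P J y) := by
    simp only [← Finset.sum_add_distrib]
    refine Finset.sum_congr rfl fun x _ => Finset.sum_congr rfl fun y _ => ?_
    rw [Real.cos_sub]; ring
  rw [e4]
  refine le_trans ?_ (add_le_add h1 h2)
  have e5 := mul_le_mul_of_nonneg_left e2 (mul_nonneg hγ hβ)
  rw [← e1]
  nlinarith [e5]

theorem box_sum {β h : ℝ} :
    ∑ k : Box N, ∑ x, ∑ y, Real.cos (ph k x - ph k y) * Ex (KB J N β h) (Mi J x * P J y)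
      ≤ ((2 * N + 1 : ℕ) : ℝ) ^ 3 * (J * ((J : ℝ) / 2 * (((2 * N + 1 : ℕ) : ℝ) ^ 3
          * Ex (KB J N β h) 1) - Ex (KB J N β h) (mag J N))) := by
  set K := KB J N β h with hK
  have e1 : ∑ k : Box N, ∑ x, ∑ y, Real.cos (ph k x - ph k y) * Ex K (Mi J x * P J y)
      = ((2 * N + 1 : ℕ) : ℝ) ^ 3 * ∑ x, Ex K (Mi J x * P J x) := by
    rw [Finset.sum_comm, Finset.mul_sum]
    refine Finset.sum_congr rfl fun x _ => ?_
    rw [Finset.sum_comm]
    have : ∀ y, ∑ k : Box N, Real.cos (ph k x - ph k y) * Ex K (Mi J x * P J y)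
        = if x = y then ((2 * N + 1 : ℕ) : ℝ) ^ 3 * Ex K (Mi J x * P J y) else 0 := by
      intro y
      rw [← Finset.sum_mul, complete]
      split_ifs <;> simp
    simp only [this]
    simp
  rw [e1]
  refine mul_le_mul_of_nonneg_left ?_ (by positivity)
  refine (Finset.sum_le_sum fun x _ => Ex_MP_le (KB_herm β h) x).trans (le_of_eq ?_)
  rw [← Finset.mul_sum, Finset.sum_sub_distrib, Finset.sum_const, Finset.card_univ, nsmul_eq_mul]
  have hcard : (Fintype.card (Box N) : ℝ) = ((2 * N + 1 : ℕ) : ℝ) ^ 3 := by simp [Box]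
  rw [hcard, mag_eq, MagV, Ex_sum]
  ring

theorem box_ineq {β h m₁ m : ℝ} (hβ : 0 < β) (hh : 0 < h) (hm1 : 0 < m₁) (hm : m₁ ≤ m)
    (hmag : Ex (KB J N β h) (mag J N) = m * (((2 * N + 1 : ℕ) : ℝ) ^ 3 * Ex (KB J N β h) 1)) :
    m₁ * ∑ k : Box N, 1 / (Real.exp (β * (h + (J : ℝ) ^ 2 / (2 * m₁) * sym k)) - 1)
      ≤ ((2 * N + 1 : ℕ) : ℝ) ^ 3 * ((J : ℝ) / 2 * ((J : ℝ) / 2 - m₁)) := by
  have hZ : 0 < Ex (KB J N β h) 1 := by
    have := trace_exp_pos (ι := Conf J (Box N)) (KB_herm (J := J) (N := N) β h).neg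
    rw [Ex, Matrix.one_mul]; exact this
  set K := KB J N β h with hK
  set n : ℝ := ((2 * N + 1 : ℕ) : ℝ) ^ 3 with hn
  have hn0 : 0 < n := by positivity
  set Z := Ex K 1 with hZdef
  have hsum := box_sum (J := J) (N := N) (β := β) (h := h)
  rw [← hK, ← hn, hmag] at hsum
  have hmode : ∀ k : Box N, 2 * n * Z * (m₁ * (1 / (Real.exp (β * (h + (J : ℝ) ^ 2 / (2 * m₁) * sym k)) - 1)))
      ≤ ∑ x, ∑ y, Real.cos (ph k x - ph k y) * Ex K (Mi J x * P J y) := by
    intro k
    have hs := sym_nonneg k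
    set θ := β * (h + (J : ℝ) ^ 2 / (2 * m₁) * sym k) with hθd
    have hθ : 0 < θ := by positivity
    have hpm := per_mode (J := J) (h := h) hβ.le hθ k
    rw [← hK, ← hn, hmag] at hpm
    refine le_trans ?_ hpm
    have hγ : 0 ≤ gam θ := by unfold gam; positivity
    have hexp : 0 < Real.exp θ - 1 := by
      have := Real.add_one_le_exp θ; linarith
    set g := 1 / (Real.exp θ - 1) with hg
    have hg0 : 0 ≤ g := by positivity
    have key : (gam θ * θ + g) * (2 * (m * (n * Z)))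
        - gam θ * (β * (n * (2 * sym k) * ((J : ℝ) ^ 2 / 2 * Z) + h * (2 * (m * (n * Z)))))
        = 2 * n * Z * (m * g + gam θ * (β * ((J : ℝ) ^ 2 / 2 * sym k * (m / m₁ - 1)))) := by
      rw [hθd]; field_simp; ring
    rw [key]
    refine mul_le_mul_of_nonneg_left ?_ (by positivity)
    have h1 : m₁ * g ≤ m * g := mul_le_mul_of_nonneg_right hm hg0
    have h2 : 0 ≤ m / m₁ - 1 := by
      rw [sub_nonneg, le_div_iff₀ hm1]; linarith
    have h3 : 0 ≤ gam θ * (β * ((J : ℝ) ^ 2 / 2 * sym k * (m / m₁ - 1))) := by positivity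
    linarith
  have h4 := (Finset.sum_le_sum fun k (_ : k ∈ (univ : Finset (Box N))) => hmode k).trans hsum
  rw [← Finset.mul_sum, ← Finset.mul_sum] at h4
  have h5 : n * (J * ((J : ℝ) / 2 * (n * Z) - m * (n * Z)))
      ≤ 2 * n * Z * (n * ((J : ℝ) / 2 * ((J : ℝ) / 2 - m₁))) := by
    have : n * (J * ((J : ℝ) / 2 * (n * Z) - m * (n * Z)))
        = 2 * n * Z * (n * ((J : ℝ) / 2 * ((J : ℝ) / 2 - m))) := by ring
    rw [this]
    refine mul_le_mul_of_nonneg_left ?_ (by positivity)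
    refine mul_le_mul_of_nonneg_left ?_ hn0.le
    refine mul_le_mul_of_nonneg_left ?_ (by positivity)
    linarith
  have h6 := h4.trans h5
  exact le_of_mul_le_mul_left h6 (by positivity)

end BoxI

end Vale.Agent.H29.Bloch
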