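import Vale.Agent.H29.Bloch.Spin

set_option linter.unusedSectionVars false
set_option linter.unusedSimpArgs false

namespace Vale.Agent.H29.Bloch

open Matrix Finset Vale.Agent.H29.BlochDefs

section Alg

variable {R : Type} [Ring R] [Algebra ℂ R]

/-- two sites: abstract commutator identities -/
structure Two (p m z p' m' z' : R) : Prop where
  pm : p * m = m * p + (2 : ℂ) • z
  zm : z * m = m * z - m
  zp : z * p = p * z + p
  pm' : p' * m' = m' * p' + (2 : ℂ) • z'
  zm' : z' * m' = m' * z' - m'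
  zp' : z' * p' = p' * z' + p'
  c1 : p' * p = p * p'
  c2 : p' * m = m * p'
  c3 : p' * z = z * p'
  c4 : m' * p = p * m'
  c5 : m' * m = m * m'
  c6 : m' * z = z * m'
  c7 : z' * p = p * z'
  c8 : z' * m = m * z'
  c9 : z' * z = z * z'

theorem swap3 {a b : R} (h : a * b = b * a) (w : R) : a * (b * w) = b * (a * w) := by
  rw [← mul_assoc, h, mul_assoc]

theorem Two.symm {p m z p' m' z' : R} (t : Two p m z p' m' z') : Two p' m' z' p m z :=
  ⟨t.pm', t.zm', t.zp', t.pm, t.zm, t.zp, t.c1.symm, t.c4.symm, t.c7.symm, t.c2.symm, t.c5.symm,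
    t.c8.symm, t.c3.symm, t.c6.symm, t.c9.symm⟩

theorem Two.TM {p m z p' m' z' : R} (t : Two p m z p' m' z') :
    (z * z' + (1 / 2 : ℂ) • (p * m' + m * p')) * m
      - m * (z * z' + (1 / 2 : ℂ) • (p * m' + m * p')) = z * m' - m * z' := by
  have e1 : z * z' * m = m * (z * z') - m * z' := by
    rw [mul_assoc, t.c8, ← mul_assoc, t.zm, sub_mul, mul_assoc]
  have e2 : p * m' * m = m * (p * m') + (2 : ℂ) • (z * m') := by
    rw [mul_assoc, t.c5, ← mul_assoc, t.pm, add_mul, mul_assoc, smul_mul_assoc]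
  have e3 : m * p' * m = m * (m * p') := by
    rw [mul_assoc, t.c2]
  rw [add_mul, smul_mul_assoc, add_mul, e1, e2, e3, mul_add, mul_smul_comm, mul_add]
  module

theorem Two.TM' {p m z p' m' z' : R} (t : Two p m z p' m' z') :
    (z * z' + (1 / 2 : ℂ) • (p * m' + m * p')) * m'
      - m' * (z * z' + (1 / 2 : ℂ) • (p * m' + m * p')) = m * z' - z * m' := by
  have h := t.symm.TM
  have e : z' * z + (1 / 2 : ℂ) • (p' * m + m' * p)
      = z * z' + (1 / 2 : ℂ) • (p * m' + m * p') := by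
    rw [t.c9, t.c2, t.c4, add_comm (m * p')]
  rw [e] at h
  rw [h, t.c8, t.c6]

theorem Two.PW {p m z p' m' z' : R} (t : Two p m z p' m' z') :
    p * (m * z' - z * m') - (m * z' - z * m') * p = (2 : ℂ) • (z * z') + p * m' := by
  have e1 : p * (m * z') = m * p * z' + (2 : ℂ) • (z * z') := by
    rw [← mul_assoc, t.pm, add_mul, smul_mul_assoc]
  have e2 : m * z' * p = m * p * z' := by rw [mul_assoc, t.c7, mul_assoc]
  have e3 : z * m' * p = p * (z * m') + p * m' := by
    rw [mul_assoc, t.c4, ← mul_assoc, t.zp, add_mul, mul_assoc]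
  rw [mul_sub, sub_mul, e1, e2, e3]
  abel

theorem Two.PW' {p m z p' m' z' : R} (t : Two p m z p' m' z') :
    p' * (m * z' - z * m') - (m * z' - z * m') * p' = -((2 : ℂ) • (z * z') + m * p') := by
  have e1 : p' * (m * z') = m * (z' * p') - m * p' := by
    rw [← mul_assoc, t.c2, mul_assoc, t.zp', mul_add]; abel
  have e2 : p' * (z * m') = z * (m' * p') + (2 : ℂ) • (z * z') := by
    rw [← mul_assoc, t.c3, mul_assoc, t.pm', mul_add, mul_smul_comm]
  rw [mul_sub, sub_mul, e1, e2, mul_assoc, mul_assoc]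
  abel

end Alg

section Coef

variable {J : ℕ} {V : Type} [Fintype V] [DecidableEq V]

theorem two_sites {x y : V} (h : x ≠ y) :
    Two (P J x) (Mi J x) (Z3 J x) (P J y) (Mi J y) (Z3 J y) where
  pm := by rw [← PM_comm]; abel
  zm := by rw [sub_eq_add_neg, ← ZM_comm]; abel
  zp := by
    have := ZP_comm (J := J) x
    rw [sub_eq_iff_eq_add] at this
    rw [this, add_comm]
  pm' := by rw [← PM_comm]; abel
  zm' := by rw [sub_eq_add_neg, ← ZM_comm]; abel
  zp' := by
    have := ZP_comm (J := J) y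
    rw [sub_eq_iff_eq_add] at this
    rw [this, add_comm]
  c1 := on_comm h.symm _ _
  c2 := on_comm h.symm _ _
  c3 := on_comm h.symm _ _
  c4 := on_comm h.symm _ _
  c5 := on_comm h.symm _ _
  c6 := on_comm h.symm _ _
  c7 := on_comm h.symm _ _
  c8 := on_comm h.symm _ _
  c9 := on_comm h.symm _ _

/-- real combination of lowering operators -/
noncomputable def Cc (J : ℕ) {V : Type} [Fintype V] [DecidableEq V] (c : V → ℝ) :
    Matrix (Conf J V) (Conf J V) ℂ := ∑ x, (c x : ℂ) • Mi J x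

theorem Cc_conj (c : V → ℝ) : (Cc J c)ᴴ = ∑ x, (c x : ℂ) • P J x := by
  rw [Cc, Matrix.conjTranspose_sum]
  refine Finset.sum_congr rfl fun x _ => ?_
  rw [Matrix.conjTranspose_smul, Mi_conj]
  simp

/-- commutator with a sum supported on one site -/
theorem comm_sum_one (A : Matrix (Conf J V) (Conf J V) ℂ)
    (f : V → Matrix (Conf J V) (Conf J V) ℂ) (x : V)
    (h : ∀ z, z ≠ x → A * f z = f z * A) :
    A * (∑ z, f z) - (∑ z, f z) * A = A * f x - f x * A := by
  rw [Finset.mul_sum, Finset.sum_mul, ← Finset.sum_sub_distrib]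
  rw [Finset.sum_eq_single x]
  · intro z _ hz
    rw [h z hz, sub_self]
  · simp

theorem comm_sum_two (A : Matrix (Conf J V) (Conf J V) ℂ)
    (f : V → Matrix (Conf J V) (Conf J V) ℂ) {x y : V} (hxy : x ≠ y)
    (h : ∀ z, z ≠ x → z ≠ y → A * f z = f z * A) :
    A * (∑ z, f z) - (∑ z, f z) * A = (A * f x - f x * A) + (A * f y - f y * A) := by
  rw [Finset.mul_sum, Finset.sum_mul, ← Finset.sum_sub_distrib]
  rw [← Finset.sum_subset (Finset.subset_univ {x, y}), Finset.sum_pair hxy]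
  intro z _ hz
  simp only [Finset.mem_insert, Finset.mem_singleton, not_or] at hz
  rw [h z hz.1 hz.2, sub_self]

theorem CC_comm (c : V → ℝ) : (Cc J c)ᴴ * Cc J c - Cc J c * (Cc J c)ᴴ
    = ∑ x, ((2 * c x ^ 2 : ℝ) : ℂ) • Z3 J x := by
  rw [Cc_conj]
  have h : ∀ x, ((c x : ℂ) • P J x) * Cc J c - Cc J c * ((c x : ℂ) • P J x)
      = ((2 * c x ^ 2 : ℝ) : ℂ) • Z3 J x := by
    intro x
    rw [Cc, comm_sum_one _ _ x]
    · rw [smul_mul_smul_comm, smul_mul_smul_comm, ← smul_sub, PM_comm, smul_smul]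
      congr 1
      push_cast; ring
    · intro z hz
      rw [smul_mul_smul_comm, smul_mul_smul_comm, mul_comm (c x : ℂ)]
      congr 1
      exact on_comm (Ne.symm hz) _ _
  rw [Finset.sum_mul, Finset.mul_sum, ← Finset.sum_sub_distrib]
  exact Finset.sum_congr rfl fun x _ => h x

/-- the two-site operator of the double commutator -/
noncomputable def W (J : ℕ) {V : Type} [Fintype V] [DecidableEq V] (x y : V) :
    Matrix (Conf J V) (Conf J V) ℂ := Mi J x * Z3 J y - Z3 J x * Mi J y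

theorem on_comm3 {x y z : V} (h1 : z ≠ x) (h2 : z ≠ y)
    (A B D : Matrix (Fin (J + 1)) (Fin (J + 1)) ℂ) :
    (onSite x A * onSite y B) * onSite z D
      = (onSite z D * (onSite x A * onSite y B) : Matrix (Conf J V) (Conf J V) ℂ) := by
  rw [mul_assoc, on_comm h2.symm, ← mul_assoc, on_comm h1.symm, mul_assoc]

theorem dot_C {x y : V} (hxy : x ≠ y) (c : V → ℝ) :
    dotSS J x y * Cc J c - Cc J c * dotSS J x y = -(((c x - c y : ℝ) : ℂ) • W J x y) := by
  have t := two_sites (J := J) hxy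
  rw [Cc, comm_sum_two _ _ hxy]
  · rw [mul_smul_comm, smul_mul_assoc, mul_smul_comm, smul_mul_assoc, ← smul_sub, ← smul_sub,
      dot_eq, t.TM, t.TM', W]
    push_cast
    module
  · intro z h1 h2
    rw [mul_smul_comm, smul_mul_assoc, dot_eq]
    congr 1
    simp only [P, Mi, Z3, add_mul, mul_add, smul_mul_assoc, mul_smul_comm, on_comm3 h1 h2]

theorem C_W {x y : V} (hxy : x ≠ y) (c : V → ℝ) :
    (Cc J c)ᴴ * W J x y - W J x y * (Cc J c)ᴴ
      = (c x : ℂ) • ((2 : ℂ) • (Z3 J x * Z3 J y) + P J x * Mi J y)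
        - (c y : ℂ) • ((2 : ℂ) • (Z3 J x * Z3 J y) + Mi J x * P J y) := by
  have t := two_sites (J := J) hxy
  rw [Cc_conj]
  have h := comm_sum_two (W J x y) (fun z => (c z : ℂ) • P J z) hxy (by
    intro z h1 h2
    rw [mul_smul_comm, smul_mul_assoc, W]
    congr 1
    simp only [P, Mi, Z3, sub_mul, mul_sub, on_comm3 h1 h2])
  have h' : (∑ z, (c z : ℂ) • P J z) * W J x y - W J x y * (∑ z, (c z : ℂ) • P J z)
      = -(W J x y * (∑ z, (c z : ℂ) • P J z) - (∑ z, (c z : ℂ) • P J z) * W J x y) := by abel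
  rw [h', h]
  have e1 := t.PW
  have e2 := t.PW'
  have e1' : W J x y * ((c x : ℂ) • P J x) - ((c x : ℂ) • P J x) * W J x y
      = -((c x : ℂ) • ((2 : ℂ) • (Z3 J x * Z3 J y) + P J x * Mi J y)) := by
    rw [← e1, mul_smul_comm, smul_mul_assoc, W, ← smul_sub, ← smul_neg]
    congr 1; abel
  have e2' : W J x y * ((c y : ℂ) • P J y) - ((c y : ℂ) • P J y) * W J x y
      = (c y : ℂ) • ((2 : ℂ) • (Z3 J x * Z3 J y) + Mi J x * P J y) := by
    have : (2 : ℂ) • (Z3 J x * Z3 J y) + Mi J x * P J y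
        = -(P J y * (Mi J x * Z3 J y - Z3 J x * Mi J y)
          - (Mi J x * Z3 J y - Z3 J x * Mi J y) * P J y) := by rw [e2, neg_neg]
    rw [this, mul_smul_comm, smul_mul_assoc, W, ← smul_sub]
    congr 1; abel
  rw [e1', e2']
  abel

end Coef

end Vale.Agent.H29.Bloch
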