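import Vale.Agent.H29.Bloch.Bounds

set_option linter.unusedSectionVars false
set_option linter.unusedSimpArgs false

namespace Vale.Agent.H29.Bloch

open Matrix Finset Vale.Agent.H29.BlochDefs

section Fbs

variable {J : ℕ} {V ε : Type} [Fintype V] [DecidableEq V] [DecidableEq ε]

noncomputable def HamE (J : ℕ) {V ε : Type} [Fintype V] [DecidableEq V] (E : Finset ε)
    (a b : ε → V) : Matrix (Conf J V) (Conf J V) ℂ := -∑ e ∈ E, dotSS J (a e) (b e)

noncomputable def MagV (J : ℕ) (V : Type) [Fintype V] [DecidableEq V] :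
    Matrix (Conf J V) (Conf J V) ℂ := ∑ x : V, Z3 J x

/-- `β (H - h M)` -/
noncomputable def KE (J : ℕ) {V ε : Type} [Fintype V] [DecidableEq V] (E : Finset ε)
    (a b : ε → V) (β h : ℝ) : Matrix (Conf J V) (Conf J V) ℂ :=
  (β : ℂ) • (HamE J E a b - (h : ℂ) • MagV J V)

theorem real_smul_herm {ι : Type} {A : Matrix ι ι ℂ} (hA : A.IsHermitian) (r : ℝ) :
    ((r : ℂ) • A).IsHermitian := by
  rw [Matrix.IsHermitian, Matrix.conjTranspose_smul, hA.eq]
  simp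

theorem MagV_herm : (MagV J V).IsHermitian := by
  rw [Matrix.IsHermitian, MagV, Matrix.conjTranspose_sum]
  exact Finset.sum_congr rfl fun x _ => Z3_conj x

theorem HamE_herm {E : Finset ε} {a b : ε → V} (hE : ∀ e ∈ E, a e ≠ b e) :
    (HamE J E a b).IsHermitian := by
  rw [Matrix.IsHermitian, HamE, Matrix.conjTranspose_neg, Matrix.conjTranspose_sum]
  congr 1
  exact Finset.sum_congr rfl fun e he => dot_herm (hE e he)

theorem KE_herm {E : Finset ε} {a b : ε → V} (hE : ∀ e ∈ E, a e ≠ b e) (β h : ℝ) :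
    (KE J E a b β h).IsHermitian :=
  real_smul_herm ((HamE_herm hE).sub (real_smul_herm MagV_herm h)) β

theorem Mag_C (c : V → ℝ) : MagV J V * Cc J c - Cc J c * MagV J V = -Cc J c := by
  have h : ∀ x, Z3 J x * Cc J c - Cc J c * Z3 J x = -((c x : ℂ) • Mi J x) := by
    intro x
    rw [Cc, comm_sum_one _ _ x]
    · rw [mul_smul_comm, smul_mul_assoc, ← smul_sub, ZM_comm, smul_neg]
    · intro z hz
      rw [mul_smul_comm, smul_mul_assoc]
      congr 1
      exact on_comm (Ne.symm hz) _ _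
  rw [MagV, Finset.sum_mul, Finset.mul_sum, ← Finset.sum_sub_distrib]
  simp only [h]
  rw [Finset.sum_neg_distrib]; rfl

theorem KC {E : Finset ε} {a b : ε → V} (hE : ∀ e ∈ E, a e ≠ b e) (β h : ℝ) (c : V → ℝ) :
    KE J E a b β h * Cc J c - Cc J c * KE J E a b β h
      = (β : ℂ) • (∑ e ∈ E, ((c (a e) - c (b e) : ℝ) : ℂ) • W J (a e) (b e)
        + (h : ℂ) • Cc J c) := by
  have h1 : HamE J E a b * Cc J c - Cc J c * HamE J E a b
      = ∑ e ∈ E, ((c (a e) - c (b e) : ℝ) : ℂ) • W J (a e) (b e) := by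
    rw [HamE, neg_mul, mul_neg, Finset.sum_mul, Finset.mul_sum]
    have : -∑ e ∈ E, dotSS J (a e) (b e) * Cc J c - -∑ e ∈ E, Cc J c * dotSS J (a e) (b e)
        = -∑ e ∈ E, (dotSS J (a e) (b e) * Cc J c - Cc J c * dotSS J (a e) (b e)) := by
      rw [Finset.sum_sub_distrib]; abel
    rw [this, ← Finset.sum_neg_distrib]
    refine Finset.sum_congr rfl fun e he => ?_
    rw [dot_C (hE e he), neg_neg]
  have h2 := Mag_C (J := J) c
  rw [KE, smul_mul_assoc, mul_smul_comm, ← smul_sub, sub_mul, mul_sub, smul_mul_assoc,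
    mul_smul_comm]
  congr 1
  have e : HamE J E a b * Cc J c - (h : ℂ) • (MagV J V * Cc J c)
      - (Cc J c * HamE J E a b - (h : ℂ) • (Cc J c * MagV J V))
      = (HamE J E a b * Cc J c - Cc J c * HamE J E a b)
        - (h : ℂ) • (MagV J V * Cc J c - Cc J c * MagV J V) := by
    rw [smul_sub]; abel
  rw [e, h1, h2, smul_neg, sub_neg_eq_add]

theorem Ex_PM_symm {K : Matrix (Conf J V) (Conf J V) ℂ} (hK : K.IsHermitian) {x y : V}
    (hxy : x ≠ y) : Ex K (P J x * Mi J y) = Ex K (Mi J x * P J y) := by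
  rw [← Ex_conj hK (Mi J x * P J y), Matrix.conjTranspose_mul, P_conj, Mi_conj]
  rw [(two_sites (J := J) hxy).c4]

theorem fb_spin {E : Finset ε} {a b : ε → V} (hE : ∀ e ∈ E, a e ≠ b e) {β h θ : ℝ}
    (hβ : 0 ≤ β) (hθ : 0 < θ) (c : V → ℝ) :
    (gam θ * θ + 1 / (Real.exp θ - 1)) * (∑ x, 2 * c x ^ 2 * Ex (KE J E a b β h) (Z3 J x))
      - gam θ * (β * (∑ e ∈ E, (c (a e) - c (b e)) ^ 2
          * ((J : ℝ) ^ 2 / 2 * Ex (KE J E a b β h) 1)
        + h * ∑ x, 2 * c x ^ 2 * Ex (KE J E a b β h) (Z3 J x)))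
      ≤ ∑ x, ∑ y, c x * c y * Ex (KE J E a b β h) (Mi J x * P J y) := by
  have hK := KE_herm (J := J) hE β h
  set K := KE J E a b β h with hKdef
  have hfb := fb hθ hK (Cc J c)
  have hγ : 0 ≤ gam θ := by unfold gam; positivity
  have e1 : ((((Cc J c)ᴴ * Cc J c - Cc J c * (Cc J c)ᴴ) * NormedSpace.exp (-K)).trace).re
      = ∑ x, 2 * c x ^ 2 * Ex K (Z3 J x) := by
    have : ((((Cc J c)ᴴ * Cc J c - Cc J c * (Cc J c)ᴴ) * NormedSpace.exp (-K)).trace).re
        = Ex K ((Cc J c)ᴴ * Cc J c - Cc J c * (Cc J c)ᴴ) := rfl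
    rw [this, CC_comm, Ex_sum]
    exact Finset.sum_congr rfl fun x _ => Ex_smul _ _ _
  have e2 : ((((Cc J c)ᴴ * (K * Cc J c - Cc J c * K) - (K * Cc J c - Cc J c * K) * (Cc J c)ᴴ)
      * NormedSpace.exp (-K)).trace).re
      ≤ β * (∑ e ∈ E, (c (a e) - c (b e)) ^ 2 * ((J : ℝ) ^ 2 / 2 * Ex K 1)
        + h * ∑ x, 2 * c x ^ 2 * Ex K (Z3 J x)) := by
    have : ((((Cc J c)ᴴ * (K * Cc J c - Cc J c * K) - (K * Cc J c - Cc J c * K) * (Cc J c)ᴴ)
        * NormedSpace.exp (-K)).trace).re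
        = Ex K ((Cc J c)ᴴ * (K * Cc J c - Cc J c * K)
          - (K * Cc J c - Cc J c * K) * (Cc J c)ᴴ) := rfl
    rw [this, hKdef, KC hE, ← hKdef]
    have e3 : (Cc J c)ᴴ * ((β : ℂ) • (∑ e ∈ E, ((c (a e) - c (b e) : ℝ) : ℂ) • W J (a e) (b e)
          + (h : ℂ) • Cc J c))
        - ((β : ℂ) • (∑ e ∈ E, ((c (a e) - c (b e) : ℝ) : ℂ) • W J (a e) (b e)
          + (h : ℂ) • Cc J c)) * (Cc J c)ᴴ
        = (β : ℂ) • (∑ e ∈ E, ((c (a e) - c (b e) : ℝ) : ℂ) • ((Cc J c)ᴴ * W J (a e) (b e)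
            - W J (a e) (b e) * (Cc J c)ᴴ)
          + (h : ℂ) • ((Cc J c)ᴴ * Cc J c - Cc J c * (Cc J c)ᴴ)) := by
      rw [mul_smul_comm, smul_mul_assoc, ← smul_sub, mul_add, add_mul, mul_smul_comm,
        smul_mul_assoc, Finset.mul_sum, Finset.sum_mul]
      congr 1
      simp only [mul_smul_comm, smul_mul_assoc, smul_sub, Finset.sum_sub_distrib]
      abel
    rw [e3, Ex_smul, Ex_add, Ex_smul, Ex_sum, CC_comm, Ex_sum]
    refine mul_le_mul_of_nonneg_left ?_ hβ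
    have e5 : ∑ x, Ex K (((2 * c x ^ 2 : ℝ) : ℂ) • Z3 J x) = ∑ x, 2 * c x ^ 2 * Ex K (Z3 J x) :=
      Finset.sum_congr rfl fun x _ => Ex_smul _ _ _
    rw [e5]
    refine add_le_add ?_ (le_refl _)
    refine Finset.sum_le_sum fun e he => ?_
    have hne := hE e he
    rw [Ex_smul, C_W hne, Ex_sub, Ex_smul, Ex_smul, Ex_add, Ex_add, Ex_PM_symm hK hne]
    have h2 : Ex K ((2 : ℂ) • (Z3 J (a e) * Z3 J (b e))) = 2 * Ex K (Z3 J (a e) * Z3 J (b e)) := by
      have := Ex_smul K (Z3 J (a e) * Z3 J (b e)) 2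
      simpa using this
    rw [h2]
    have h3 := Ex_dot_le hK hne
    have h4 := Ex_ZZ_le hK (a e) (b e)
    have h5 : Ex K (dotSS J (a e) (b e)) = Ex K (Z3 J (a e) * Z3 J (b e))
        + Ex K (Mi J (a e) * P J (b e)) := by
      rw [dot_eq, Ex_add]
      have := Ex_smul K (P J (a e) * Mi J (b e) + Mi J (a e) * P J (b e)) (1 / 2)
      have h6 : ((1 / 2 : ℝ) : ℂ) = (1 / 2 : ℂ) := by norm_num
      rw [h6] at this
      rw [this, Ex_add, Ex_PM_symm hK hne]; ring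
    have h7 : (c (a e) - c (b e)) * (c (a e) * (2 * Ex K (Z3 J (a e) * Z3 J (b e))
          + Ex K (Mi J (a e) * P J (b e)))
        - c (b e) * (2 * Ex K (Z3 J (a e) * Z3 J (b e)) + Ex K (Mi J (a e) * P J (b e))))
        = (c (a e) - c (b e)) ^ 2 * (Ex K (Z3 J (a e) * Z3 J (b e)) + Ex K (dotSS J (a e) (b e))) := by
      rw [h5]; ring
    rw [h7]
    refine mul_le_mul_of_nonneg_left ?_ (sq_nonneg _)
    linarith
  have e4 : ((Cc J c * (Cc J c)ᴴ * NormedSpace.exp (-K)).trace).re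
      = ∑ x, ∑ y, c x * c y * Ex K (Mi J x * P J y) := by
    have : ((Cc J c * (Cc J c)ᴴ * NormedSpace.exp (-K)).trace).re = Ex K (Cc J c * (Cc J c)ᴴ) := rfl
    rw [this, Cc_conj, Cc, Finset.sum_mul, Ex_sum]
    refine Finset.sum_congr rfl fun x _ => ?_
    rw [Finset.mul_sum, Ex_sum]
    refine Finset.sum_congr rfl fun y _ => ?_
    rw [smul_mul_smul_comm, ← Complex.ofReal_mul, Ex_smul]
  rw [e1, e4] at hfb
  have := mul_le_mul_of_nonneg_left e2 hγ
  linarith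

end Fbs

end Vale.Agent.H29.Bloch
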