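import Vale.Agent.H29.Bloch.Limit

set_option linter.unusedSectionVars false
set_option linter.unusedSimpArgs false

namespace Vale.Agent.H29.Bloch

open Matrix Finset Vale.Agent.H29.BlochDefs Filter Topology

variable {J : ℕ}

theorem gg_pos (a : ℝ) : 0 < gg a := by
  unfold gg
  have : 0 < ∫ t in (0 : ℝ)..(1 / 2), Real.exp (-(2 * Real.pi ^ 2 * a) * t ^ 2) := by
    apply intervalIntegral.intervalIntegral_pos_of_pos
    · apply Continuous.intervalIntegrable; fun_prop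
    · intro t; exact Real.exp_pos _
    · norm_num
  linarith

theorem L_tendsto : Tendsto (fun N : ℕ => ((2 * N + 1 : ℕ) : ℝ)) atTop atTop := by
  have h : Tendsto (fun N : ℕ => 2 * N + 1) atTop atTop :=
    tendsto_atTop_mono (fun N => by show N ≤ 2 * N + 1; omega) tendsto_id
  exact tendsto_natCast_atTop_atTop.comp h

theorem mN_ev_le {β h m₁ : ℝ} (hβ : 0 < β) (hh : 0 < h) (hm1 : 0 < m₁) (K : ℕ)
    (hcond : (J : ℝ) / 2 * ((J : ℝ) / 2 - m₁) < m₁ * ∑ i ∈ range K,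
      Real.exp (-((i + 1 : ℕ) * (β * h))) * gg ((i + 1 : ℕ) * (β * ((J : ℝ) ^ 2 / (2 * m₁)))) ^ 3) :
    ∀ᶠ N in atTop, mN J N β h ≤ m₁ := by
  set b := β * h with hb
  set c := β * ((J : ℝ) ^ 2 / (2 * m₁)) with hc
  have hb0 : 0 < b := by positivity
  have hc0 : 0 ≤ c := by positivity
  have hlim : Tendsto (fun N : ℕ => m₁ * ∑ i ∈ range K,
      Real.exp (-((i + 1 : ℕ) * b)) * (gg ((i + 1 : ℕ) * c) - 1 / ((2 * N + 1 : ℕ) : ℝ)) ^ 3)
      atTop (𝓝 (m₁ * ∑ i ∈ range K, Real.exp (-((i + 1 : ℕ) * b)) * gg ((i + 1 : ℕ) * c) ^ 3)) := by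
    refine Tendsto.const_mul _ (tendsto_finsetSum _ fun i _ => Tendsto.const_mul _ ?_)
    have h0 : Tendsto (fun N : ℕ => 1 / ((2 * N + 1 : ℕ) : ℝ)) atTop (𝓝 0) := by
      simp only [one_div]
      exact L_tendsto.inv_tendsto_atTop
    have := (tendsto_const_nhds (x := gg ((i + 1 : ℕ) * c))).sub h0
    rw [sub_zero] at this
    exact this.pow 3
  have hev1 := hlim.eventually (lt_mem_nhds hcond)
  have hev2 : ∀ i ∈ range K, ∀ᶠ N : ℕ in atTop,
      0 ≤ ((2 * N + 1 : ℕ) : ℝ) * gg ((i + 1 : ℕ) * c) - 1 := by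
    intro i _
    have := (L_tendsto.atTop_mul_const (gg_pos ((i + 1 : ℕ) * c))).eventually_ge_atTop 1
    filter_upwards [this] with N hN
    linarith
  have hev3 : ∀ᶠ N : ℕ in atTop, ∀ i ∈ range K,
      0 ≤ ((2 * N + 1 : ℕ) : ℝ) * gg ((i + 1 : ℕ) * c) - 1 :=
    (Filter.eventually_all_finset _).mpr hev2
  filter_upwards [hev1, hev3] with N h1 h3
  by_contra hcon
  push Not at hcon
  set L : ℝ := ((2 * N + 1 : ℕ) : ℝ) with hL
  have hL0 : 0 < L := by rw [hL]; positivity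
  have hZ := Ex_one_pos (J := J) (N := N) β h
  have hv : vol N = L ^ 3 := rfl
  have hmag : Ex (KB J N β h) (mag J N) = mN J N β h * (L ^ 3 * Ex (KB J N β h) 1) := by
    rw [mN, hv, div_mul_cancel₀]
    positivity
  have hbox := box_ineq (J := J) (N := N) hβ hh hm1 hcon.le hmag
  have hbose := bose_ge (N := N) hb0 hc0 K h3
  have e1 : ∀ k : Box N, β * (h + (J : ℝ) ^ 2 / (2 * m₁) * sym k) = b + c * sym k := by
    intro k; rw [hb, hc]; ring
  simp only [e1] at hbox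
  have e2 := mul_le_mul_of_nonneg_left hbose hm1.le
  have e3 : m₁ * ∑ i ∈ range K, Real.exp (-((i + 1 : ℕ) * b)) * (L * gg ((i + 1 : ℕ) * c) - 1) ^ 3
      = L ^ 3 * (m₁ * ∑ i ∈ range K, Real.exp (-((i + 1 : ℕ) * b))
        * (gg ((i + 1 : ℕ) * c) - 1 / L) ^ 3) := by
    simp only [Finset.mul_sum]
    refine Finset.sum_congr rfl fun i _ => ?_
    have : L * gg ((i + 1 : ℕ) * c) - 1 = L * (gg ((i + 1 : ℕ) * c) - 1 / L) := by
      field_simp
    rw [this, mul_pow]; ring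
  have e4 : L ^ 3 * ((J : ℝ) / 2 * ((J : ℝ) / 2 - m₁))
      < L ^ 3 * (m₁ * ∑ i ∈ range K, Real.exp (-((i + 1 : ℕ) * b))
        * (gg ((i + 1 : ℕ) * c) - 1 / L) ^ 3) :=
    mul_lt_mul_of_pos_left h1 (by positivity)
  rw [← e3] at e4
  linarith

theorem sqrt_gg : Tendsto (fun a : ℝ => Real.sqrt a * gg a) atTop (𝓝 (1 / Real.sqrt (2 * Real.pi))) := by
  have h1 : ∀ a : ℝ, 0 < a → Real.sqrt a * gg a
      = 2 * ∫ u in (0 : ℝ)..(Real.sqrt a / 2), Real.exp (-(2 * Real.pi ^ 2) * u ^ 2) := by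
    intro a ha
    have hs : Real.sqrt a ≠ 0 := (Real.sqrt_pos.mpr ha).ne'
    have := intervalIntegral.integral_comp_mul_left (a := 0) (b := 1 / 2)
      (fun u => Real.exp (-(2 * Real.pi ^ 2) * u ^ 2)) hs
    rw [mul_zero] at this
    have e : ∀ t : ℝ, Real.exp (-(2 * Real.pi ^ 2) * (Real.sqrt a * t) ^ 2)
        = Real.exp (-(2 * Real.pi ^ 2 * a) * t ^ 2) := by
      intro t
      rw [mul_pow, Real.sq_sqrt ha.le]; congr 1; ring
    simp only [e, smul_eq_mul] at this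
    rw [gg, this]
    have e2 : Real.sqrt a * (1 / 2) = Real.sqrt a / 2 := by ring
    rw [e2]
    field_simp
  have h2 : Tendsto (fun x : ℝ => ∫ u in (0 : ℝ)..x, Real.exp (-(2 * Real.pi ^ 2) * u ^ 2)) atTop
      (𝓝 (∫ u in Set.Ioi (0 : ℝ), Real.exp (-(2 * Real.pi ^ 2) * u ^ 2))) := by
    apply MeasureTheory.intervalIntegral_tendsto_integral_Ioi
    · exact (integrable_exp_neg_mul_sq (by positivity)).integrableOn
    · exact tendsto_id
  rw [integral_gaussian_Ioi] at h2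
  have h3 : Tendsto (fun a : ℝ => Real.sqrt a / 2) atTop atTop :=
    (Real.tendsto_sqrt_atTop).atTop_div_const (by norm_num)
  have h4 := (h2.comp h3).const_mul 2
  have h5 : 2 * (Real.sqrt (Real.pi / (2 * Real.pi ^ 2)) / 2) = 1 / Real.sqrt (2 * Real.pi) := by
    have hpi := Real.pi_pos
    have : Real.pi / (2 * Real.pi ^ 2) = 1 / (2 * Real.pi) := by field_simp
    rw [this, Real.sqrt_div zero_le_one, Real.sqrt_one]; ring
  rw [h5] at h4
  refine h4.congr' ?_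
  filter_upwards [eventually_gt_atTop 0] with a ha
  rw [h1 a ha]; rfl

/-- partial sums of the limit constant -/
noncomputable def TK (J K : ℕ) : ℝ :=
  ∑ i ∈ range K, (1 / Real.sqrt (2 * Real.pi * ((i + 1 : ℕ) * J))) ^ 3

theorem eventually_bound (hJ : 0 < J) {c₁ : ℝ} (K : ℕ) (hK : c₁ < TK J K) :
    ∀ᶠ β : ℝ in atTop, spMag J β ≤ (J : ℝ) / 2 - c₁ * β ^ (-(3 / 2) : ℝ) := by
  have hJ0 : (0 : ℝ) < J := by exact_mod_cast hJ
  set m : ℝ → ℝ := fun β => (J : ℝ) / 2 - c₁ * β ^ (-(3 / 2) : ℝ) with hm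
  have hm_lim : Tendsto m atTop (𝓝 ((J : ℝ) / 2)) := by
    have h1 : Tendsto (fun β : ℝ => β ^ (-(3 / 2) : ℝ)) atTop (𝓝 0) :=
      tendsto_rpow_neg_atTop (by norm_num)
    have h2 := (tendsto_const_nhds (x := (J : ℝ) / 2)).sub (h1.const_mul c₁)
    simpa using h2
  have hm_pos : ∀ᶠ β in atTop, 0 < m β := hm_lim.eventually (lt_mem_nhds (by positivity))
  -- the rescaled right-hand side
  have hterm : ∀ i : ℕ, Tendsto (fun β : ℝ => Real.exp (-((i + 1 : ℕ) * (β * (1 / β ^ 2))))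
      * (Real.sqrt β * gg ((i + 1 : ℕ) * (β * ((J : ℝ) ^ 2 / (2 * m β))))) ^ 3) atTop
      (𝓝 ((1 / Real.sqrt (2 * Real.pi * ((i + 1 : ℕ) * J))) ^ 3)) := by
    intro i
    have ht1 : Tendsto (fun β : ℝ => Real.exp (-((i + 1 : ℕ) * (β * (1 / β ^ 2))))) atTop (𝓝 1) := by
      have h1 : Tendsto (fun β : ℝ => β * (1 / β ^ 2)) atTop (𝓝 0) := by
        have : Tendsto (fun β : ℝ => β⁻¹) atTop (𝓝 0) := tendsto_inv_atTop_zero
        refine this.congr' ?_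
        filter_upwards [eventually_gt_atTop 0] with β hβ
        field_simp
      have h2 := (h1.const_mul ((i + 1 : ℕ) : ℝ)).neg
      rw [mul_zero, neg_zero] at h2
      have h3 := (Real.continuous_exp.tendsto 0).comp h2
      rw [Real.exp_zero] at h3
      exact h3
    have ha : Tendsto (fun β : ℝ => (((i + 1 : ℕ) : ℝ) * ((J : ℝ) ^ 2 / (2 * m β)))) atTop
        (𝓝 (((i + 1 : ℕ) : ℝ) * ((J : ℝ) ^ 2 / (2 * ((J : ℝ) / 2))))) :=
      (tendsto_const_nhds.div (hm_lim.const_mul 2) (by positivity)).const_mul _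
    have hav : ((i + 1 : ℕ) : ℝ) * ((J : ℝ) ^ 2 / (2 * ((J : ℝ) / 2))) = (i + 1 : ℕ) * J := by
      field_simp
    rw [hav] at ha
    have hpos : (0 : ℝ) < (i + 1 : ℕ) * J := by positivity
    have harg : Tendsto (fun β : ℝ => (i + 1 : ℕ) * (β * ((J : ℝ) ^ 2 / (2 * m β)))) atTop atTop := by
      have := ha.pos_mul_atTop hpos tendsto_id
      refine this.congr fun β => ?_
      simp only [id]; ring
    have h1 := sqrt_gg.comp harg
    have h2 : Tendsto (fun β : ℝ => 1 / Real.sqrt ((i + 1 : ℕ) * ((J : ℝ) ^ 2 / (2 * m β)))) atTop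
        (𝓝 (1 / Real.sqrt ((i + 1 : ℕ) * J))) := by
      refine tendsto_const_nhds.div ((Real.continuous_sqrt.tendsto _).comp ha) ?_
      exact (Real.sqrt_pos.mpr hpos).ne'
    have h3 := h2.mul h1
    have h4 : 1 / Real.sqrt ((i + 1 : ℕ) * J) * (1 / Real.sqrt (2 * Real.pi))
        = 1 / Real.sqrt (2 * Real.pi * ((i + 1 : ℕ) * J)) := by
      rw [Real.sqrt_mul (by positivity : (0 : ℝ) ≤ 2 * Real.pi)]
      field_simp
    rw [h4] at h3
    have h5 : Tendsto (fun β : ℝ => Real.sqrt β * gg ((i + 1 : ℕ) * (β * ((J : ℝ) ^ 2 / (2 * m β)))))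
        atTop (𝓝 (1 / Real.sqrt (2 * Real.pi * ((i + 1 : ℕ) * J)))) := by
      refine h3.congr' ?_
      filter_upwards [eventually_gt_atTop 0, hm_pos] with β hβ hmβ
      simp only [Function.comp_apply]
      have e1 : ((i + 1 : ℕ) : ℝ) * (β * ((J : ℝ) ^ 2 / (2 * m β)))
          = ((i + 1 : ℕ) * ((J : ℝ) ^ 2 / (2 * m β))) * β := by ring
      have e2 : 0 < ((i + 1 : ℕ) : ℝ) * ((J : ℝ) ^ 2 / (2 * m β)) := by positivity
      have e3 : Real.sqrt (((i + 1 : ℕ) : ℝ) * (β * ((J : ℝ) ^ 2 / (2 * m β))))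
          = Real.sqrt ((i + 1 : ℕ) * ((J : ℝ) ^ 2 / (2 * m β))) * Real.sqrt β := by
        rw [e1, Real.sqrt_mul e2.le]
      rw [e3]
      have e4 := (Real.sqrt_pos.mpr e2).ne'
      field_simp
    have h6 := ht1.mul (h5.pow 3)
    rw [one_mul] at h6
    exact h6
  have hsum : Tendsto (fun β : ℝ => m β * ∑ i ∈ range K,
      Real.exp (-((i + 1 : ℕ) * (β * (1 / β ^ 2))))
      * (Real.sqrt β * gg ((i + 1 : ℕ) * (β * ((J : ℝ) ^ 2 / (2 * m β))))) ^ 3) atTop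
      (𝓝 ((J : ℝ) / 2 * TK J K)) :=
    hm_lim.mul (tendsto_finsetSum _ fun i _ => hterm i)
  have hlt : (J : ℝ) / 2 * c₁ < (J : ℝ) / 2 * TK J K :=
    mul_lt_mul_of_pos_left hK (by positivity)
  filter_upwards [hsum.eventually (lt_mem_nhds hlt), hm_pos, eventually_gt_atTop 0] with β h1 h2 h3
  refine spMag_le h3 (by positivity : (0 : ℝ) < 1 / β ^ 2) ?_
  refine mN_ev_le h3 (by positivity) h2 K ?_
  have e1 : (J : ℝ) / 2 - m β = c₁ * β ^ (-(3 / 2) : ℝ) := by rw [hm]; ring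
  have e2 : β ^ (-(3 / 2) : ℝ) = 1 / Real.sqrt β ^ 3 := by
    rw [Real.rpow_neg h3.le, Real.sqrt_eq_rpow, ← Real.rpow_natCast, ← Real.rpow_mul h3.le, one_div]
    norm_num
  have hs : 0 < Real.sqrt β := Real.sqrt_pos.mpr h3
  have e3 : m β * ∑ i ∈ range K, Real.exp (-((i + 1 : ℕ) * (β * (1 / β ^ 2))))
      * (Real.sqrt β * gg ((i + 1 : ℕ) * (β * ((J : ℝ) ^ 2 / (2 * m β))))) ^ 3
      = Real.sqrt β ^ 3 * (m β * ∑ i ∈ range K, Real.exp (-((i + 1 : ℕ) * (β * (1 / β ^ 2))))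
      * gg ((i + 1 : ℕ) * (β * ((J : ℝ) ^ 2 / (2 * m β)))) ^ 3) := by
    simp only [Finset.mul_sum]
    refine Finset.sum_congr rfl fun i _ => ?_
    rw [mul_pow]; ring
  rw [e3] at h1
  have e1' : (J : ℝ) / 2 - m β = c₁ * (1 / Real.sqrt β ^ 3) := e1.trans (by rw [e2])
  rw [e1']
  have h4 : (J : ℝ) / 2 * (c₁ * (1 / Real.sqrt β ^ 3)) = (J : ℝ) / 2 * c₁ / Real.sqrt β ^ 3 := by
    ring
  rw [h4, div_lt_iff₀ (by positivity)]
  rw [mul_comm (Real.sqrt β ^ 3)] at h1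
  exact h1

theorem zeta_sum : (riemannZeta (3 / 2)).re = ∑' n : ℕ, 1 / ((n : ℝ) + 1) ^ (3 / 2 : ℝ) := by
  have h := zeta_eq_tsum_one_div_nat_add_one_cpow (s := (3 / 2 : ℂ)) (by norm_num)
  have h2 : ∀ n : ℕ, (1 / ((n : ℂ) + 1) ^ (3 / 2 : ℂ)) = ((1 / ((n : ℝ) + 1) ^ (3 / 2 : ℝ) : ℝ) : ℂ) := by
    intro n
    rw [Complex.ofReal_div, Complex.ofReal_cpow (by positivity)]
    push_cast
    rfl
  simp only [h2] at h
  rw [h, ← Complex.ofReal_tsum, Complex.ofReal_re]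

theorem zeta_summable : Summable (fun n : ℕ => 1 / ((n : ℝ) + 1) ^ (3 / 2 : ℝ)) := by
  have h := (Real.summable_one_div_nat_rpow (p := (3 / 2 : ℝ))).mpr (by norm_num)
  have := (summable_nat_add_iff 1).mpr h
  simpa using this

/-- the constant of Bloch's law -/
theorem TK_tendsto (hJ : 0 < J) : Tendsto (fun K => TK J K) atTop
    (𝓝 ((riemannZeta (3 / 2)).re / (8 * Real.pi ^ (3 / 2 : ℝ) * ((J : ℝ) / 2) ^ (3 / 2 : ℝ)))) := by
  have hJ0 : (0 : ℝ) < J := by exact_mod_cast hJ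
  have hpi := Real.pi_pos
  have h1 : ∀ i : ℕ, (1 / Real.sqrt (2 * Real.pi * ((i + 1 : ℕ) * J))) ^ 3
      = (1 / (8 * Real.pi ^ (3 / 2 : ℝ) * ((J : ℝ) / 2) ^ (3 / 2 : ℝ)))
        * (1 / ((i : ℝ) + 1) ^ (3 / 2 : ℝ)) := by
    intro i
    have e1 : Real.sqrt (2 * Real.pi * ((i + 1 : ℕ) * J)) ^ 3
        = (2 * Real.pi * ((i + 1 : ℕ) * J)) ^ (3 / 2 : ℝ) := by
      rw [Real.sqrt_eq_rpow, ← Real.rpow_natCast, ← Real.rpow_mul (by positivity)]
      norm_num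
    have e2 : 2 * Real.pi * ((i + 1 : ℕ) * (J : ℝ)) = 4 * Real.pi * ((J : ℝ) / 2) * ((i : ℝ) + 1) := by
      push_cast; ring
    have e3 : (4 : ℝ) ^ (3 / 2 : ℝ) = 8 := by
      have : (4 : ℝ) = 2 ^ (2 : ℝ) := by norm_num
      rw [this, ← Real.rpow_mul (by norm_num)]
      norm_num
    rw [div_pow, one_pow, e1, e2, Real.mul_rpow (by positivity) (by positivity),
      Real.mul_rpow (by positivity) (by positivity), Real.mul_rpow (by norm_num) hpi.le, e3]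
    field_simp
  have h2 : ∀ K, TK J K = (1 / (8 * Real.pi ^ (3 / 2 : ℝ) * ((J : ℝ) / 2) ^ (3 / 2 : ℝ)))
      * ∑ i ∈ range K, (1 / ((i : ℝ) + 1) ^ (3 / 2 : ℝ)) := by
    intro K
    rw [TK, Finset.mul_sum]
    exact Finset.sum_congr rfl fun i _ => h1 i
  simp only [h2]
  rw [zeta_sum]
  have h3 := (zeta_summable.hasSum.tendsto_sum_nat).const_mul
    (1 / (8 * Real.pi ^ (3 / 2 : ℝ) * ((J : ℝ) / 2) ^ (3 / 2 : ℝ)))
  convert h3 using 2
  ring

theorem bloch_lower (hJ : 0 < J) {c : ℝ}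
    (hc : c < (riemannZeta (3 / 2)).re / (8 * Real.pi ^ (3 / 2 : ℝ) * ((J : ℝ) / 2) ^ (3 / 2 : ℝ))) :
    ∀ᶠ β : ℝ in atTop, c ≤ β ^ (3 / 2 : ℝ) * ((J : ℝ) / 2 - spMag J β) := by
  obtain ⟨K, hK⟩ := ((TK_tendsto hJ).eventually (lt_mem_nhds hc)).exists
  filter_upwards [eventually_bound hJ K hK, eventually_gt_atTop 0] with β h1 h2
  have h3 : c * β ^ (-(3 / 2) : ℝ) ≤ (J : ℝ) / 2 - spMag J β := by linarith
  have h4 := mul_le_mul_of_nonneg_left h3 (Real.rpow_pos_of_pos h2 (3 / 2)).le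
  have h5 : β ^ (3 / 2 : ℝ) * (c * β ^ (-(3 / 2) : ℝ)) = c := by
    rw [mul_left_comm, ← Real.rpow_add h2]
    norm_num
  linarith

end Vale.Agent.H29.Bloch
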