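import Mathlib

set_option linter.unusedSectionVars false
set_option linter.unusedSimpArgs false

namespace Vale.Agent.H29.Bloch

open Matrix Finset

variable {ι : Type} [Fintype ι] [DecidableEq ι]

theorem exists_diag {A : Matrix ι ι ℂ} (hA : A.IsHermitian) :
    ∃ (U : Matrix ι ι ℂ) (a : ι → ℝ), Uᴴ * U = 1 ∧ U * Uᴴ = 1 ∧
      A = U * diagonal (fun i => (a i : ℂ)) * Uᴴ := by
  refine ⟨hA.eigenvectorUnitary, hA.eigenvalues, ?_, ?_, ?_⟩
  · have := Unitary.coe_star_mul_self hA.eigenvectorUnitary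
    simpa [Matrix.star_eq_conjTranspose] using this
  · have := Unitary.coe_mul_star_self hA.eigenvectorUnitary
    simpa [Matrix.star_eq_conjTranspose] using this
  · have := hA.spectral_theorem
    rw [Unitary.conjStarAlgAut_apply] at this
    exact this

theorem exp_diag (a : ι → ℝ) :
    NormedSpace.exp (diagonal (fun i => (a i : ℂ)))
      = diagonal (fun i => ((Real.exp (a i) : ℝ) : ℂ)) := by
  rw [Matrix.exp_diagonal]
  congr 1
  funext i
  rw [Pi.coe_exp, ← Complex.exp_eq_exp_ℂ, Complex.ofReal_exp]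

theorem exp_conj_diag {U : Matrix ι ι ℂ} (_h1 : Uᴴ * U = 1) (h2 : U * Uᴴ = 1)
    (A : Matrix ι ι ℂ) : NormedSpace.exp (U * A * Uᴴ) = U * NormedSpace.exp A * Uᴴ := by
  have hinv : U⁻¹ = Uᴴ := Matrix.inv_eq_right_inv h2
  have hu : IsUnit U := by
    rw [Matrix.isUnit_iff_isUnit_det]
    exact Matrix.isUnit_det_of_right_inverse h2
  have := Matrix.exp_conj U A hu
  rwa [hinv] at this

theorem exp_eq_conj {U : Matrix ι ι ℂ} {a : ι → ℝ} (h1 : Uᴴ * U = 1) (h2 : U * Uᴴ = 1) :
    NormedSpace.exp (U * diagonal (fun i => (a i : ℂ)) * Uᴴ)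
      = U * diagonal (fun i => ((Real.exp (a i) : ℝ) : ℂ)) * Uᴴ := by
  rw [exp_conj_diag h1 h2, exp_diag]

theorem trace_conj {U : Matrix ι ι ℂ} (h1 : Uᴴ * U = 1) (X : Matrix ι ι ℂ) :
    (U * X * Uᴴ).trace = X.trace := by
  rw [Matrix.trace_mul_comm, ← Matrix.mul_assoc, h1, Matrix.one_mul]

/-- scalar inequality of Klein type for a diagonal first operator -/
theorem klein_diag (a : ι → ℝ) {B : Matrix ι ι ℂ} (hB : B.IsHermitian) :
    ∑ i, Real.exp (a i) * (1 + ((B i i).re - a i)) ≤ (NormedSpace.exp B).trace.re := by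
  obtain ⟨V, b, h1, h2, hBV⟩ := exists_diag hB
  have hE : (NormedSpace.exp B).trace.re = ∑ j, Real.exp (b j) := by
    rw [hBV, exp_eq_conj h1 h2, trace_conj h1, Matrix.trace_diagonal]
    simp only [Complex.re_sum, Complex.ofReal_re]
  have hrow : ∀ i, ∑ j, ‖V i j‖ ^ 2 = 1 := by
    intro i
    have := congrFun (congrFun h2 i) i
    rw [Matrix.mul_apply, Matrix.one_apply_eq] at this
    have h3 : ((∑ j, ‖V i j‖ ^ 2 : ℝ) : ℂ) = 1 := by
      rw [← this]; push_cast
      refine Finset.sum_congr rfl fun j _ => ?_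
      rw [Matrix.conjTranspose_apply, ← Complex.mul_conj']
      rfl
    exact_mod_cast h3
  have hcol : ∀ j, ∑ i, ‖V i j‖ ^ 2 = 1 := by
    intro j
    have := congrFun (congrFun h1 j) j
    rw [Matrix.mul_apply, Matrix.one_apply_eq] at this
    have h3 : ((∑ i, ‖V i j‖ ^ 2 : ℝ) : ℂ) = 1 := by
      rw [← this]; push_cast
      refine Finset.sum_congr rfl fun i _ => ?_
      rw [Matrix.conjTranspose_apply, ← Complex.conj_mul']
      rfl
    exact_mod_cast h3
  have hBd : ∀ i, (B i i).re = ∑ j, ‖V i j‖ ^ 2 * b j := by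
    intro i
    have : B i i = ((∑ j, ‖V i j‖ ^ 2 * b j : ℝ) : ℂ) := by
      rw [hBV, Matrix.mul_apply]
      push_cast
      refine Finset.sum_congr rfl fun j _ => ?_
      rw [Matrix.mul_diagonal, Matrix.conjTranspose_apply, ← Complex.mul_conj']
      show V i j * (b j : ℂ) * star (V i j) = _
      have : star (V i j) = (starRingEnd ℂ) (V i j) := rfl
      rw [this]; ring
    rw [this, Complex.ofReal_re]
  rw [hE]
  have hL : ∑ i, Real.exp (a i) * (1 + ((B i i).re - a i))
      = ∑ i, ∑ j, ‖V i j‖ ^ 2 * (Real.exp (a i) * (1 + (b j - a i))) := by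
    refine Finset.sum_congr rfl fun i _ => ?_
    have e1 : ∑ j, ‖V i j‖ ^ 2 * (Real.exp (a i) * (1 + (b j - a i)))
        = Real.exp (a i) * ((∑ j, ‖V i j‖ ^ 2) * (1 - a i) + ∑ j, ‖V i j‖ ^ 2 * b j) := by
      rw [Finset.sum_mul, ← Finset.sum_add_distrib, Finset.mul_sum]
      refine Finset.sum_congr rfl fun j _ => by ring
    rw [e1, hrow i, ← hBd i]; ring
  have hR : ∑ j, Real.exp (b j) = ∑ i, ∑ j, ‖V i j‖ ^ 2 * Real.exp (b j) := by
    rw [Finset.sum_comm]
    refine Finset.sum_congr rfl fun j _ => ?_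
    rw [← Finset.sum_mul, hcol j, one_mul]
  rw [hL, hR]
  refine Finset.sum_le_sum fun i _ => Finset.sum_le_sum fun j _ => ?_
  refine mul_le_mul_of_nonneg_left ?_ (sq_nonneg _)
  have e2 : Real.exp (b j) = Real.exp (a i) * Real.exp (b j - a i) := by
    rw [← Real.exp_add]; congr 1; ring
  rw [e2]
  refine mul_le_mul_of_nonneg_left ?_ (Real.exp_pos _).le
  have := Real.add_one_le_exp (b j - a i)
  linarith

/-- Klein inequality for the exponential -/
theorem klein {A B : Matrix ι ι ℂ} (hA : A.IsHermitian) (hB : B.IsHermitian) :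
    (NormedSpace.exp A).trace.re + ((B - A) * NormedSpace.exp A).trace.re
      ≤ (NormedSpace.exp B).trace.re := by
  obtain ⟨U, a, h1, h2, hAU⟩ := exists_diag hA
  have hB' : (Uᴴ * B * U).IsHermitian := by
    rw [Matrix.IsHermitian, Matrix.conjTranspose_mul, Matrix.conjTranspose_mul,
      conjTranspose_conjTranspose, hB.eq, Matrix.mul_assoc]
  have hk := klein_diag a hB'
  have hBB : B = U * (Uᴴ * B * U) * Uᴴ := by
    calc B = (U * Uᴴ) * B * (U * Uᴴ) := by rw [h2]; simp
      _ = _ := by simp only [Matrix.mul_assoc]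
  have e1 : (NormedSpace.exp B).trace = (NormedSpace.exp (Uᴴ * B * U)).trace := by
    conv_lhs => rw [hBB]
    rw [exp_conj_diag h1 h2, trace_conj h1]
  have e2 : NormedSpace.exp A = U * diagonal (fun i => ((Real.exp (a i) : ℝ) : ℂ)) * Uᴴ := by
    rw [hAU, exp_eq_conj h1 h2]
  have e3 : ((B - A) * NormedSpace.exp A).trace
      = ((Uᴴ * B * U - diagonal (fun i => (a i : ℂ)))
          * diagonal (fun i => ((Real.exp (a i) : ℝ) : ℂ))).trace := by
    have : (B - A) * NormedSpace.exp A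
        = U * ((Uᴴ * B * U - diagonal (fun i => (a i : ℂ)))
          * diagonal (fun i => ((Real.exp (a i) : ℝ) : ℂ))) * Uᴴ := by
      have hd : B - A = U * (Uᴴ * B * U - diagonal (fun i => (a i : ℂ))) * Uᴴ := by
        rw [Matrix.mul_sub, Matrix.sub_mul, ← hBB, ← hAU]
      rw [hd, e2]
      calc _ = U * (Uᴴ * B * U - diagonal (fun i => (a i : ℂ))) * (Uᴴ * U)
            * diagonal (fun i => ((Real.exp (a i) : ℝ) : ℂ)) * Uᴴ := by
            simp only [Matrix.mul_assoc]
        _ = _ := by rw [h1]; simp only [Matrix.mul_assoc, Matrix.mul_one]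
    rw [this, trace_conj h1]
  rw [e1, e3, e2, trace_conj h1]
  refine le_trans (le_of_eq ?_) hk
  rw [Matrix.trace_diagonal]
  simp only [Matrix.trace, Matrix.diag_apply, Matrix.mul_diagonal, Matrix.sub_apply,
    Matrix.diagonal_apply_eq, Complex.re_sum, Complex.ofReal_re]
  rw [← Finset.sum_add_distrib]
  refine Finset.sum_congr rfl fun i _ => ?_
  simp only [Complex.mul_re, Complex.sub_re, Complex.ofReal_re, Complex.ofReal_im, mul_zero,
    sub_zero]
  ring

theorem trace_exp_pos [Nonempty ι] {A : Matrix ι ι ℂ} (hA : A.IsHermitian) :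
    0 < (NormedSpace.exp A).trace.re := by
  obtain ⟨U, a, h1, h2, hAU⟩ := exists_diag hA
  rw [hAU, exp_eq_conj h1 h2, trace_conj h1, Matrix.trace_diagonal]
  simp only [Complex.re_sum, Complex.ofReal_re]
  exact Finset.sum_pos (fun i _ => Real.exp_pos _) Finset.univ_nonempty

/-- Peierls-Bogoliubov inequality -/
theorem peierls_bogoliubov [Nonempty ι] {A B : Matrix ι ι ℂ} (hA : A.IsHermitian)
    (hB : B.IsHermitian) :
    Real.log (NormedSpace.exp A).trace.re
      + ((B - A) * NormedSpace.exp A).trace.re / (NormedSpace.exp A).trace.re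
      ≤ Real.log (NormedSpace.exp B).trace.re := by
  set Z := (NormedSpace.exp A).trace.re with hZ
  have hZ0 : 0 < Z := trace_exp_pos hA
  set t := ((B - A) * NormedSpace.exp A).trace.re / Z with ht
  -- shift
  have hcomm : NormedSpace.exp (A + (t : ℂ) • (1 : Matrix ι ι ℂ))
      = (Real.exp t : ℂ) • NormedSpace.exp A := by
    obtain ⟨U, a, h1, h2, hAU⟩ := exists_diag hA
    have e : A + (t : ℂ) • (1 : Matrix ι ι ℂ)
        = U * diagonal (fun i => ((a i + t : ℝ) : ℂ)) * Uᴴ := by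
      have : diagonal (fun i => ((a i + t : ℝ) : ℂ))
          = diagonal (fun i => (a i : ℂ)) + (t : ℂ) • (1 : Matrix ι ι ℂ) := by
        rw [← Matrix.diagonal_one, ← Matrix.diagonal_smul, Matrix.diagonal_add]
        congr 1; funext i; simp
      rw [this, Matrix.mul_add, Matrix.add_mul, ← hAU, Matrix.mul_smul, Matrix.mul_one,
        Matrix.smul_mul, h2]
    rw [e, exp_eq_conj h1 h2, hAU, exp_eq_conj h1 h2, ← Matrix.smul_mul, ← Matrix.mul_smul,
      ← Matrix.diagonal_smul]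
    congr 3; funext i
    simp only [Pi.smul_apply, smul_eq_mul, ← Complex.ofReal_mul, Real.exp_add]
    push_cast; ring
  have hA' : (A + (t : ℂ) • (1 : Matrix ι ι ℂ)).IsHermitian := by
    refine hA.add ?_
    rw [Matrix.IsHermitian, Matrix.conjTranspose_smul, Matrix.conjTranspose_one]
    simp
  have hk := klein hA' hB
  rw [hcomm] at hk
  have e1 : ((Real.exp t : ℂ) • NormedSpace.exp A).trace.re = Real.exp t * Z := by
    rw [Matrix.trace_smul, smul_eq_mul, Complex.re_ofReal_mul]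
  have e2 : ((B - (A + (t : ℂ) • (1 : Matrix ι ι ℂ))) * ((Real.exp t : ℂ) • NormedSpace.exp A)).trace.re
      = 0 := by
    have : (B - (A + (t : ℂ) • (1 : Matrix ι ι ℂ))) * ((Real.exp t : ℂ) • NormedSpace.exp A)
        = (Real.exp t : ℂ) • ((B - A) * NormedSpace.exp A)
          - (Real.exp t : ℂ) • ((t : ℂ) • NormedSpace.exp A) := by
      rw [Matrix.mul_smul, ← sub_sub, Matrix.sub_mul, Matrix.smul_mul, Matrix.one_mul, smul_sub]
    rw [this, Matrix.trace_sub, Matrix.trace_smul, Matrix.trace_smul, Matrix.trace_smul,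
      Complex.sub_re, smul_eq_mul, smul_eq_mul, smul_eq_mul, Complex.re_ofReal_mul,
      Complex.re_ofReal_mul, Complex.re_ofReal_mul]
    have : t * Z = ((B - A) * NormedSpace.exp A).trace.re := by
      rw [ht, div_mul_cancel₀ _ hZ0.ne']
    rw [← hZ, this]; ring
  rw [e1, e2, add_zero] at hk
  have e3 : Real.log Z + t = Real.log (Real.exp t * Z) := by
    rw [Real.log_mul (Real.exp_pos _).ne' hZ0.ne', Real.log_exp]; ring
  rw [e3]
  exact Real.log_le_log (by positivity) hk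

/-- elementary inequality behind the spectral form -/
theorem key_scalar {θ : ℝ} (hθ : 0 < θ) (ω : ℝ) :
    (Real.exp ω - 1) * (1 / (Real.exp θ - 1)
      + Real.exp θ / (Real.exp θ - 1) ^ 2 * (θ - ω)) ≤ 1 := by
  have ha : 1 < Real.exp θ := by
    have := Real.add_one_le_exp θ; linarith
  set a := Real.exp θ with hadef
  set δ := ω - θ with hδ
  have hω : Real.exp ω = a * Real.exp δ := by
    rw [hadef, ← Real.exp_add]; congr 1; rw [hδ]; ring
  have h1 : 0 < a - 1 := by linarith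
  have e1 := Real.add_one_le_exp δ
  have e2 := Real.add_one_le_exp (-δ)
  have e3 : Real.exp δ * Real.exp (-δ) = 1 := by rw [← Real.exp_add]; simp
  have hE := Real.exp_pos δ
  have key : (a * Real.exp δ - 1) * ((a - 1) - δ * a) ≤ (a - 1) ^ 2 := by
    have e4 : 0 ≤ Real.exp δ * (Real.exp (-δ) - (-δ + 1)) :=
      mul_nonneg hE.le (by linarith)
    have e5 : 1 - Real.exp δ + δ * Real.exp δ = Real.exp δ * (Real.exp (-δ) - (-δ + 1)) := by
      rw [mul_sub, e3]; ring
    have e6 : (a - 1) ^ 2 - (a * Real.exp δ - 1) * ((a - 1) - δ * a)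
        = a * (a * (1 - Real.exp δ + δ * Real.exp δ) + (Real.exp δ - (δ + 1))) := by ring
    have e7 : 0 ≤ a * (a * (1 - Real.exp δ + δ * Real.exp δ) + (Real.exp δ - (δ + 1))) := by
      apply mul_nonneg (by linarith)
      apply add_nonneg _ (by linarith)
      rw [e5]
      exact mul_nonneg (by linarith) e4
    linarith
  have e8 : (Real.exp ω - 1) * (1 / (a - 1) + a / (a - 1) ^ 2 * (θ - ω))
      = ((a * Real.exp δ - 1) * ((a - 1) - δ * a)) / (a - 1) ^ 2 := by
    rw [hω, hδ]; field_simp; ring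
  rw [e8, div_le_one (by positivity)]
  exact key

/-- coefficients of the linear inequality -/
noncomputable def gam (θ : ℝ) : ℝ := Real.exp θ / (Real.exp θ - 1) ^ 2

theorem tr_mul_diag (X : Matrix ι ι ℂ) (d : ι → ℂ) :
    (X * diagonal d).trace = ∑ i, X i i * d i := by
  simp only [Matrix.trace, Matrix.diag_apply, Matrix.mul_diagonal]

theorem fb_diag {θ : ℝ} (hθ : 0 < θ) (κ : ι → ℝ) (C : Matrix ι ι ℂ) :
    (gam θ * θ + 1 / (Real.exp θ - 1)) * ((Cᴴ * C - C * Cᴴ)
        * diagonal (fun i => ((Real.exp (-κ i) : ℝ) : ℂ))).trace.re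
      - gam θ * ((Cᴴ * (diagonal (fun i => (κ i : ℂ)) * C - C * diagonal (fun i => (κ i : ℂ)))
        - (diagonal (fun i => (κ i : ℂ)) * C - C * diagonal (fun i => (κ i : ℂ))) * Cᴴ)
        * diagonal (fun i => ((Real.exp (-κ i) : ℝ) : ℂ))).trace.re
      ≤ (C * Cᴴ * diagonal (fun i => ((Real.exp (-κ i) : ℝ) : ℂ))).trace.re := by
  have hsq : ∀ z : ℂ, z * star z = ((‖z‖ ^ 2 : ℝ) : ℂ) := by
    intro z
    have := Complex.mul_conj' z
    push_cast; exact this
  have hsq' : ∀ z : ℂ, star z * z = ((‖z‖ ^ 2 : ℝ) : ℂ) := by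
    intro z; rw [mul_comm]; exact hsq z
  have e1 : (C * Cᴴ * diagonal (fun i => ((Real.exp (-κ i) : ℝ) : ℂ))).trace.re
      = ∑ i, ∑ j, ‖C i j‖ ^ 2 * Real.exp (-κ i) := by
    simp only [tr_mul_diag, Matrix.mul_apply,
      Matrix.conjTranspose_apply, hsq, ← Complex.ofReal_sum, ← Complex.ofReal_mul,
      Complex.ofReal_re, Finset.sum_mul]
  have e2 : (Cᴴ * C * diagonal (fun i => ((Real.exp (-κ i) : ℝ) : ℂ))).trace.re
      = ∑ i, ∑ j, ‖C i j‖ ^ 2 * Real.exp (-κ j) := by
    simp only [tr_mul_diag, Matrix.mul_apply,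
      Matrix.conjTranspose_apply, hsq', ← Complex.ofReal_sum, ← Complex.ofReal_mul,
      Complex.ofReal_re, Finset.sum_mul]
    rw [Finset.sum_comm]
  have e3 : (Cᴴ * (diagonal (fun i => (κ i : ℂ)) * C - C * diagonal (fun i => (κ i : ℂ)))
        * diagonal (fun i => ((Real.exp (-κ i) : ℝ) : ℂ))).trace.re
      = ∑ i, ∑ j, ‖C i j‖ ^ 2 * ((κ i - κ j) * Real.exp (-κ j)) := by
    have : ∀ i j, star (C i j) * ((κ i : ℂ) * C i j - C i j * (κ j : ℂ))
        = ((‖C i j‖ ^ 2 * (κ i - κ j) : ℝ) : ℂ) := by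
      intro i j
      rw [Complex.ofReal_mul, ← hsq', Complex.ofReal_sub]; ring
    rw [tr_mul_diag]
    simp only [Matrix.mul_apply (M := Cᴴ), Matrix.sub_apply, Matrix.diagonal_mul,
      Matrix.mul_diagonal,
      Matrix.conjTranspose_apply, this,
      ← Complex.ofReal_sum, ← Complex.ofReal_mul, Complex.ofReal_re, Finset.sum_mul]
    rw [Finset.sum_comm]
    refine Finset.sum_congr rfl fun i _ => Finset.sum_congr rfl fun j _ => by ring
  have e4 : ((diagonal (fun i => (κ i : ℂ)) * C - C * diagonal (fun i => (κ i : ℂ))) * Cᴴ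
        * diagonal (fun i => ((Real.exp (-κ i) : ℝ) : ℂ))).trace.re
      = ∑ i, ∑ j, ‖C i j‖ ^ 2 * ((κ i - κ j) * Real.exp (-κ i)) := by
    have : ∀ i j, ((κ i : ℂ) * C i j - C i j * (κ j : ℂ)) * star (C i j)
        = ((‖C i j‖ ^ 2 * (κ i - κ j) : ℝ) : ℂ) := by
      intro i j
      rw [Complex.ofReal_mul, ← hsq, Complex.ofReal_sub]; ring
    rw [tr_mul_diag]
    simp only [Matrix.mul_apply (N := Cᴴ), Matrix.sub_apply, Matrix.diagonal_mul,
      Matrix.mul_diagonal,
      Matrix.conjTranspose_apply, this,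
      ← Complex.ofReal_sum, ← Complex.ofReal_mul, Complex.ofReal_re, Finset.sum_mul]
    refine Finset.sum_congr rfl fun i _ => Finset.sum_congr rfl fun j _ => by ring
  rw [Matrix.sub_mul, Matrix.trace_sub, Complex.sub_re, Matrix.sub_mul (Cᴴ * _), Matrix.trace_sub,
    Complex.sub_re, e1, e2, e3, e4]
  simp only [← Finset.sum_sub_distrib, Finset.mul_sum]
  refine Finset.sum_le_sum fun i _ => Finset.sum_le_sum fun j _ => ?_
  have hk := key_scalar hθ (κ i - κ j)
  have hx : Real.exp (-κ j) = Real.exp (-κ i) * Real.exp (κ i - κ j) := by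
    rw [← Real.exp_add]; congr 1; ring
  rw [hx]
  have hpos : 0 ≤ ‖C i j‖ ^ 2 * Real.exp (-κ i) := by positivity
  have := mul_le_mul_of_nonneg_left hk hpos
  unfold gam
  nlinarith [this]

/-- linear form of the improved Bogoliubov inequality -/
theorem fb {θ : ℝ} (hθ : 0 < θ) {K : Matrix ι ι ℂ} (hK : K.IsHermitian) (C : Matrix ι ι ℂ) :
    (gam θ * θ + 1 / (Real.exp θ - 1)) * ((Cᴴ * C - C * Cᴴ) * NormedSpace.exp (-K)).trace.re
      - gam θ * ((Cᴴ * (K * C - C * K) - (K * C - C * K) * Cᴴ) * NormedSpace.exp (-K)).trace.re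
      ≤ (C * Cᴴ * NormedSpace.exp (-K)).trace.re := by
  obtain ⟨U, κ, h1, h2, hKU⟩ := exists_diag hK
  set D : Matrix ι ι ℂ := diagonal (fun i => (κ i : ℂ)) with hD
  set E : Matrix ι ι ℂ := diagonal (fun i => ((Real.exp (-κ i) : ℝ) : ℂ)) with hE
  have hexp : NormedSpace.exp (-K) = U * E * Uᴴ := by
    have : -K = U * diagonal (fun i => ((-κ i : ℝ) : ℂ)) * Uᴴ := by
      have : diagonal (fun i => ((-κ i : ℝ) : ℂ)) = -D := by
        rw [hD, Matrix.diagonal_neg]; congr 1; funext i; simp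
      rw [this, hKU, Matrix.mul_neg, Matrix.neg_mul]
    rw [this, exp_eq_conj h1 h2]
  set C' : Matrix ι ι ℂ := Uᴴ * C * U with hC'
  have hC : C = U * C' * Uᴴ := by
    calc C = (U * Uᴴ) * C * (U * Uᴴ) := by rw [h2]; simp
      _ = _ := by rw [hC']; simp only [Matrix.mul_assoc]
  have hCH : Cᴴ = U * C'ᴴ * Uᴴ := by
    rw [hC, Matrix.conjTranspose_mul, Matrix.conjTranspose_mul, conjTranspose_conjTranspose,
      Matrix.mul_assoc]
  have mulc : ∀ X Y : Matrix ι ι ℂ, (U * X * Uᴴ) * (U * Y * Uᴴ) = U * (X * Y) * Uᴴ := by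
    intro X Y
    calc _ = U * X * (Uᴴ * U) * Y * Uᴴ := by simp only [Matrix.mul_assoc]
      _ = _ := by rw [h1]; simp only [Matrix.mul_assoc, Matrix.mul_one]
  have subc : ∀ X Y : Matrix ι ι ℂ, (U * X * Uᴴ) - (U * Y * Uᴴ) = U * (X - Y) * Uᴴ := by
    intro X Y
    rw [Matrix.mul_sub, Matrix.sub_mul]
  have := fb_diag hθ κ C'
  rw [hexp, hCH, hKU]
  conv_lhs => rw [hC]
  conv_rhs => rw [hC]
  simp only [mulc, subc, trace_conj h1]
  exact this

end Vale.Agent.H29.Bloch
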