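import Vale.Agent.H29.Bloch.Pressure

set_option linter.unusedSectionVars false
set_option linter.unusedSimpArgs false

namespace Vale.Agent.H29.Bloch

open Matrix Finset Vale.Agent.H29.BlochDefs Filter

variable {J : ℕ}

theorem presN_bdd {β : ℝ} (hβ : 0 < β) (h : ℝ) (N : ℕ) :
    |presN J N β h| ≤ Real.log (J + 1) / β + 3 * ((J : ℝ) ^ 2 / 4) + |h| * (J / 2) := by
  have h1 := presN_lip (J := J) (N := N) hβ h
  have h2 := presN_zero_le (J := J) (N := N) hβ
  have h3 := presN_zero_ge (J := J) (N := N) hβ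
  have h4 : 0 ≤ Real.log ((J : ℝ) + 1) / β :=
    div_nonneg (Real.log_nonneg (by have : (0 : ℝ) ≤ J := by positivity
                                    linarith)) hβ.le
  rw [abs_le] at h1 ⊢
  constructor <;> linarith [h1.1, h1.2]

theorem presN_above {β : ℝ} (hβ : 0 < β) (h : ℝ) :
    IsBoundedUnder (· ≤ ·) atTop (fun N : ℕ => presN J N β h) :=
  isBoundedUnder_of ⟨_, fun N => (abs_le.mp (presN_bdd hβ h N)).2⟩

theorem presN_cobdd {β : ℝ} (hβ : 0 < β) (h : ℝ) :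
    IsCoboundedUnder (· ≤ ·) atTop (fun N : ℕ => presN J N β h) := by
  have : IsBoundedUnder (· ≥ ·) atTop (fun N : ℕ => presN J N β h) :=
    isBoundedUnder_of ⟨_, fun N => (abs_le.mp (presN_bdd hβ h N)).1⟩
  exact this.isCoboundedUnder_le

theorem presN_ev {β : ℝ} (hβ : 0 < β) (h : ℝ) {ε : ℝ} (hε : 0 < ε) :
    ∀ᶠ N in atTop, presN J N β h < pres J β h + ε :=
  eventually_lt_of_limsup_lt (by rw [pres]; linarith) (presN_above hβ h)

theorem pres_le {β : ℝ} (hβ : 0 < β) (h c : ℝ) (hc : ∀ᶠ N in atTop, presN J N β h ≤ c) :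
    pres J β h ≤ c :=
  limsup_le_of_le (presN_cobdd hβ h) hc

theorem presN_convex {N : ℕ} {β : ℝ} (hβ : 0 < β) (h1 h2 a b : ℝ) (ha : 0 ≤ a) (hb : 0 ≤ b)
    (hab : a + b = 1) :
    presN J N β (a * h1 + b * h2) ≤ a * presN J N β h1 + b * presN J N β h2 := by
  have e1 := PB_N (J := J) (N := N) hβ (a * h1 + b * h2) h1
  have e2 := PB_N (J := J) (N := N) hβ (a * h1 + b * h2) h2
  have f1 := mul_le_mul_of_nonneg_left e1 ha
  have f2 := mul_le_mul_of_nonneg_left e2 hb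
  set p := presN J N β (a * h1 + b * h2)
  set m := mN J N β (a * h1 + b * h2)
  have : a * (p + (h1 - (a * h1 + b * h2)) * m) + b * (p + (h2 - (a * h1 + b * h2)) * m)
      = (a + b) * p + ((a * h1 + b * h2) - (a + b) * (a * h1 + b * h2)) * m := by ring
  rw [hab] at this
  linarith

theorem pres_convex {β : ℝ} (hβ : 0 < β) : ConvexOn ℝ Set.univ (pres J β) := by
  refine ⟨convex_univ, fun h1 _ h2 _ a b ha hb hab => ?_⟩
  simp only [smul_eq_mul]
  refine le_of_forall_pos_le_add fun ε hε => ?_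
  have e1 := presN_ev (J := J) hβ h1 hε
  have e2 := presN_ev (J := J) hβ h2 hε
  refine pres_le hβ _ _ ?_
  filter_upwards [e1, e2] with N f1 f2
  refine (presN_convex hβ h1 h2 a b ha hb hab).trans ?_
  have g1 := mul_le_mul_of_nonneg_left f1.le ha
  have g2 := mul_le_mul_of_nonneg_left f2.le hb
  have : a * (pres J β h1 + ε) + b * (pres J β h2 + ε)
      = a * pres J β h1 + b * pres J β h2 + (a + b) * ε := by ring
  rw [hab] at this
  linarith

theorem hasDeriv {β : ℝ} (hβ : 0 < β) :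
    HasDerivWithinAt (pres J β) (spMag J β) (Set.Ioi 0) 0 :=
  (pres_convex hβ).hasDerivWithinAt_rightDeriv_of_mem_interior (by simp)

theorem spMag_le {β h m₁ : ℝ} (hβ : 0 < β) (hh : 0 < h)
    (hev : ∀ᶠ N in atTop, mN J N β h ≤ m₁) : spMag J β ≤ m₁ := by
  have h1 : spMag J β ≤ slope (pres J β) 0 h :=
    (pres_convex hβ).rightDeriv_le_slope_of_mem_interior (by simp) (by simp) hh
  refine h1.trans ?_
  rw [slope_def_field, sub_zero, div_le_iff₀ hh]
  have : pres J β h ≤ m₁ * h + pres J β 0 := by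
    refine le_of_forall_pos_le_add fun ε hε => ?_
    refine pres_le hβ _ _ ?_
    filter_upwards [hev, presN_ev (J := J) hβ 0 hε] with N f1 f2
    have f3 := PB_N (J := J) (N := N) hβ h 0
    have f4 := mul_le_mul_of_nonneg_right f1 hh.le
    linarith
  linarith

section Sum

/-- one-dimensional sum -/
noncomputable def S1 (N : ℕ) (a : ℝ) : ℝ :=
  ∑ m : Fin (2 * N + 1), Real.exp (-(a * (1 - Real.cos (2 * Real.pi * ((m : ℕ) : ℝ) / (2 * N + 1 : ℕ)))))

noncomputable def gg (a : ℝ) : ℝ := 2 * ∫ t in (0 : ℝ)..(1 / 2), Real.exp (-(2 * Real.pi ^ 2 * a) * t ^ 2)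

theorem S1_ge {N : ℕ} {a : ℝ} (ha : 0 ≤ a) : ((2 * N + 1 : ℕ) : ℝ) * gg a - 1 ≤ S1 N a := by
  set L := 2 * N + 1 with hL
  have hL0 : (0 : ℝ) < (L : ℝ) := by rw [hL]; positivity
  set f : ℕ → ℝ := fun m => Real.exp (-(a * (1 - Real.cos (2 * Real.pi * (m : ℝ) / (L : ℕ))))) with hf
  have hf0 : f 0 = 1 := by simp [hf]
  have hfsymm : ∀ m, m ≤ L → f (L - m) = f m := by
    intro m hm
    simp only [hf]
    congr 4
    rw [Nat.cast_sub hm]
    have : 2 * Real.pi * ((L : ℝ) - (m : ℝ)) / (L : ℝ) = 2 * Real.pi - 2 * Real.pi * m / L := by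
      field_simp
    rw [this, Real.cos_two_pi_sub]
  have e1 : S1 N a = ∑ m ∈ range L, f m := by
    rw [S1, ← Fin.sum_univ_eq_sum_range]
  have e2 : ∑ m ∈ range L, f m = 2 * ∑ m ∈ range (N + 1), f m - 1 := by
    have h1 : L = (N + 1) + N := by omega
    rw [h1, Finset.sum_range_add]
    have h2 : ∑ x ∈ range N, f (N + 1 + x) = ∑ x ∈ range N, f (x + 1) := by
      rw [← Finset.sum_range_reflect (fun x => f (x + 1)) N]
      refine Finset.sum_congr rfl fun x hx => ?_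
      have hxN := Finset.mem_range.mp hx
      rw [← hfsymm (N - 1 - x + 1) (by omega)]
      congr 1
      omega
    rw [h2]
    have h3 : ∑ m ∈ range (N + 1), f m = ∑ x ∈ range N, f (x + 1) + f 0 := Finset.sum_range_succ' f N
    linarith
  have e3 : ∀ m : ℕ, Real.exp (-(2 * Real.pi ^ 2 * a) * ((m : ℝ) / L) ^ 2) ≤ f m := by
    intro m
    simp only [hf]
    apply Real.exp_le_exp.mpr
    have := Real.one_sub_sq_div_two_le_cos (x := 2 * Real.pi * (m : ℝ) / (L : ℕ))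
    have h2 : (2 * Real.pi * (m : ℝ) / (L : ℕ)) ^ 2 / 2 = 2 * Real.pi ^ 2 * ((m : ℝ) / L) ^ 2 := by
      ring
    rw [h2] at this
    nlinarith
  set F : ℝ → ℝ := fun t => Real.exp (-(2 * Real.pi ^ 2 * a) * (t / L) ^ 2) with hF
  have hFcont : Continuous F := by
    simp only [hF]; fun_prop
  have hanti : AntitoneOn F (Set.Icc ((0 : ℝ)) (0 + (N + 1 : ℕ))) := by
    intro s hs t ht hst
    simp only [hF]
    apply Real.exp_le_exp.mpr
    have h1 : s / L ≤ t / L := div_le_div_of_nonneg_right hst hL0.le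
    have h2 : 0 ≤ s / L := div_nonneg hs.1 hL0.le
    have h3 : (s / L) ^ 2 ≤ (t / L) ^ 2 := pow_le_pow_left₀ h2 h1 2
    have h4 : 0 ≤ 2 * Real.pi ^ 2 * a := by positivity
    nlinarith
  have e4 : ∫ t in (0 : ℝ)..(0 + (N + 1 : ℕ)), F t ≤ ∑ i ∈ range (N + 1), F (0 + i) :=
    hanti.integral_le_sum
  have e5 : (L : ℝ) * ∫ t in (0 : ℝ)..(1 / 2), Real.exp (-(2 * Real.pi ^ 2 * a) * t ^ 2)
      ≤ ∫ t in (0 : ℝ)..(0 + (N + 1 : ℕ)), F t := by
    have h1 : ∫ t in (0 : ℝ)..(0 + (N + 1 : ℕ)), F t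
        = (L : ℝ) * ∫ t in (0 : ℝ)..((N + 1 : ℕ) / L), Real.exp (-(2 * Real.pi ^ 2 * a) * t ^ 2) := by
      have := intervalIntegral.integral_comp_div (a := 0) (b := ((N + 1 : ℕ) : ℝ))
        (fun t => Real.exp (-(2 * Real.pi ^ 2 * a) * t ^ 2)) hL0.ne'
      simp only [zero_div, smul_eq_mul] at this
      rw [zero_add]
      exact this
    rw [h1]
    refine mul_le_mul_of_nonneg_left ?_ hL0.le
    have h2 : (1 / 2 : ℝ) ≤ (N + 1 : ℕ) / L := by
      rw [div_le_div_iff₀ (by norm_num) hL0, hL]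
      push_cast; linarith
    refine intervalIntegral.integral_mono_interval (le_refl _) (by norm_num) h2 ?_ ?_
    · exact Filter.Eventually.of_forall fun t => (Real.exp_pos _).le
    · apply Continuous.intervalIntegrable; fun_prop
  have e6 : ∑ i ∈ range (N + 1), F (0 + i) ≤ ∑ m ∈ range (N + 1), f m := by
    refine Finset.sum_le_sum fun m _ => ?_
    simp only [hF, zero_add]
    exact e3 m
  rw [e1, e2, gg]
  have h7 : (L : ℝ) * (2 * ∫ t in (0 : ℝ)..(1 / 2), Real.exp (-(2 * Real.pi ^ 2 * a) * t ^ 2))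
      = 2 * ((L : ℝ) * ∫ t in (0 : ℝ)..(1 / 2), Real.exp (-(2 * Real.pi ^ 2 * a) * t ^ 2)) := by ring
  rw [h7]
  linarith

theorem geom_le {θ : ℝ} (hθ : 0 < θ) (K : ℕ) :
    ∑ i ∈ range K, Real.exp (-((i + 1 : ℕ) * θ)) ≤ 1 / (Real.exp θ - 1) := by
  have hx : Real.exp (-θ) < 1 := by rw [Real.exp_lt_one_iff]; linarith
  have hx0 := Real.exp_pos (-θ)
  have e1 : ∀ i : ℕ, Real.exp (-((i + 1 : ℕ) * θ)) = Real.exp (-θ) * Real.exp (-θ) ^ i := by
    intro i
    rw [← Real.exp_nat_mul, ← Real.exp_add]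
    congr 1; push_cast; ring
  simp only [e1]
  rw [← Finset.mul_sum, geom_sum_eq hx.ne]
  have h2 : 0 < Real.exp θ - 1 := by
    have := Real.add_one_le_exp θ; linarith
  have h3 : Real.exp θ * Real.exp (-θ) = 1 := by rw [← Real.exp_add]; simp
  rw [le_div_iff₀ h2]
  have h4 : (Real.exp (-θ) ^ K - 1) / (Real.exp (-θ) - 1)
      = (1 - Real.exp (-θ) ^ K) / (1 - Real.exp (-θ)) := by
    rw [← neg_sub 1, ← neg_sub 1 (Real.exp (-θ)), neg_div_neg_eq]
  rw [h4]
  have h5 : 0 < 1 - Real.exp (-θ) := by linarith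
  have h6 : Real.exp (-θ) * ((1 - Real.exp (-θ) ^ K) / (1 - Real.exp (-θ))) * (Real.exp θ - 1)
      = 1 - Real.exp (-θ) ^ K := by
    have : Real.exp (-θ) * (Real.exp θ - 1) = 1 - Real.exp (-θ) := by
      rw [mul_sub, mul_comm, h3, mul_one]
    calc _ = (1 - Real.exp (-θ) ^ K) / (1 - Real.exp (-θ)) * (Real.exp (-θ) * (Real.exp θ - 1)) := by
          ring
      _ = _ := by rw [this, div_mul_cancel₀ _ h5.ne']
  rw [h6]
  have := pow_nonneg hx0.le K
  linarith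

theorem sum_modes {N : ℕ} (b c : ℝ) (i : ℕ) :
    ∑ k : Box N, Real.exp (-(i * (b + c * sym k))) = Real.exp (-(i * b)) * S1 N (i * c) ^ 3 := by
  have e1 : ∀ k : Box N, Real.exp (-(i * (b + c * sym k)))
      = Real.exp (-(i * b)) * ∏ j, Real.exp (-(i * c * (1 - Real.cos (2 * Real.pi * ((k j : ℕ) : ℝ) / (2 * N + 1 : ℕ))))) := by
    intro k
    rw [← Real.exp_sum, ← Real.exp_add]
    congr 1
    rw [sym, Finset.sum_neg_distrib, ← Finset.mul_sum]
    ring
  simp only [e1]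
  rw [← Finset.mul_sum]
  congr 1
  have h2 := Finset.prod_univ_sum (fun _ : Fin 3 => (univ : Finset (Fin (2 * N + 1))))
    (fun _ m => Real.exp (-(i * c * (1 - Real.cos (2 * Real.pi * ((m : ℕ) : ℝ) / (2 * N + 1 : ℕ))))))
  rw [Fintype.piFinset_univ] at h2
  rw [← h2]
  simp [S1]

theorem bose_ge {N : ℕ} {b c : ℝ} (hb : 0 < b) (hc : 0 ≤ c) (K : ℕ)
    (hpos : ∀ i ∈ range K, 0 ≤ ((2 * N + 1 : ℕ) : ℝ) * gg ((i + 1 : ℕ) * c) - 1) :
    ∑ i ∈ range K, Real.exp (-((i + 1 : ℕ) * b))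
        * (((2 * N + 1 : ℕ) : ℝ) * gg ((i + 1 : ℕ) * c) - 1) ^ 3
      ≤ ∑ k : Box N, 1 / (Real.exp (b + c * sym k) - 1) := by
  have h1 : ∀ k : Box N, ∑ i ∈ range K, Real.exp (-((i + 1 : ℕ) * (b + c * sym k)))
      ≤ 1 / (Real.exp (b + c * sym k) - 1) := by
    intro k
    apply geom_le
    have := mul_nonneg hc (sym_nonneg k)
    linarith
  refine le_trans ?_ (Finset.sum_le_sum fun k _ => h1 k)
  rw [Finset.sum_comm]
  refine Finset.sum_le_sum fun i hi => ?_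
  rw [sum_modes]
  refine mul_le_mul_of_nonneg_left ?_ (Real.exp_pos _).le
  exact pow_le_pow_left₀ (hpos i hi) (S1_ge (by positivity)) 3

end Sum

end Vale.Agent.H29.Bloch
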