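import Vale.Agent.H29.Bloch.BoxIneq

set_option linter.unusedSectionVars false
set_option linter.unusedSimpArgs false

namespace Vale.Agent.H29.Bloch

open Matrix Finset Vale.Agent.H29.BlochDefs

variable {J N : ℕ}

/-- volume -/
noncomputable def vol (N : ℕ) : ℝ := ((2 * N + 1 : ℕ) : ℝ) ^ 3

theorem vol_pos (N : ℕ) : 0 < vol N := by unfold vol; positivity

theorem card_box (N : ℕ) : (Fintype.card (Box N) : ℝ) = vol N := by simp [Box, vol]

/-- finite-volume magnetization density -/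
noncomputable def mN (J N : ℕ) (β h : ℝ) : ℝ :=
  Ex (KB J N β h) (mag J N) / (vol N * Ex (KB J N β h) 1)

theorem Ex_one_pos (β h : ℝ) : 0 < Ex (KB J N β h) 1 := by
  have := trace_exp_pos (ι := Conf J (Box N)) (KB_herm (J := J) (N := N) β h).neg
  rw [Ex, Matrix.one_mul]; exact this

theorem presN_eq (β h : ℝ) : presN J N β h
    = 1 / (β * vol N) * Real.log (Ex (KB J N β h) 1) := by
  rw [presN, Ex, Matrix.one_mul, KB, vol]
  push_cast
  rfl

theorem PB_N {β : ℝ} (hβ : 0 < β) (h h' : ℝ) :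
    presN J N β h + (h' - h) * mN J N β h ≤ presN J N β h' := by
  have hpb := peierls_bogoliubov (KB_herm (J := J) (N := N) β h).neg
    (KB_herm (J := J) (N := N) β h').neg
  have e1 : (NormedSpace.exp (-KB J N β h)).trace.re = Ex (KB J N β h) 1 := by
    rw [Ex, Matrix.one_mul]
  have e2 : (NormedSpace.exp (-KB J N β h')).trace.re = Ex (KB J N β h') 1 := by
    rw [Ex, Matrix.one_mul]
  have e3 : -KB J N β h' - -KB J N β h = ((β * (h' - h) : ℝ) : ℂ) • mag J N := by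
    rw [KB, KB]
    push_cast
    module
  have e4 : ((-KB J N β h' - -KB J N β h) * NormedSpace.exp (-KB J N β h)).trace.re
      = β * (h' - h) * Ex (KB J N β h) (mag J N) := by
    rw [e3, Matrix.smul_mul, Matrix.trace_smul, smul_eq_mul, Complex.re_ofReal_mul]; rfl
  rw [e1, e2, e4] at hpb
  rw [presN_eq, presN_eq, mN]
  have hv := vol_pos N
  have hZ := Ex_one_pos (J := J) (N := N) β h
  have e5 : 1 / (β * vol N) * Real.log (Ex (KB J N β h) 1)
      + (h' - h) * (Ex (KB J N β h) (mag J N) / (vol N * Ex (KB J N β h) 1))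
      = 1 / (β * vol N) * (Real.log (Ex (KB J N β h) 1)
        + β * (h' - h) * Ex (KB J N β h) (mag J N) / Ex (KB J N β h) 1) := by
    field_simp
  rw [e5]
  exact mul_le_mul_of_nonneg_left hpb (by positivity)

theorem mN_le (β h : ℝ) : mN J N β h ≤ J / 2 := by
  have hv := vol_pos N
  have hZ := Ex_one_pos (J := J) (N := N) β h
  rw [mN, div_le_iff₀ (by positivity), mag_eq, MagV, Ex_sum]
  refine (Finset.sum_le_sum fun x _ => Ex_Z_le (KB_herm β h) x).trans (le_of_eq ?_)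
  rw [Finset.sum_const, Finset.card_univ, nsmul_eq_mul, card_box]
  ring

theorem Ex_Z_ge {V : Type} [Fintype V] [DecidableEq V] {K : Matrix (Conf J V) (Conf J V) ℂ}
    (hK : K.IsHermitian) (x : V) : -((J : ℝ) / 2 * Ex K 1) ≤ Ex K (Z3 J x) := by
  have h : (((J : ℝ) / 2 : ℝ) : ℂ) • (1 : Matrix (Conf J V) (Conf J V) ℂ)
      + Z3 J x = diagonal fun σ : Conf J V => (((J : ℝ) - ((σ x : ℕ) : ℝ) : ℝ) : ℂ) := by
    rw [Z3_eq, ← Matrix.diagonal_one, ← Matrix.diagonal_smul, Matrix.diagonal_add]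
    congr 1; funext σ
    simp only [Pi.smul_apply, smul_eq_mul, mul_one]; push_cast; ring
  have h2 := Ex_diag_nonneg hK (d := fun σ : Conf J V => (J : ℝ) - ((σ x : ℕ) : ℝ))
    (fun σ => by have := cast_le (σ x); linarith)
  rw [← h, Ex_add, Ex_smul] at h2
  linarith

theorem mN_ge (β h : ℝ) : -(J / 2 : ℝ) ≤ mN J N β h := by
  have hv := vol_pos N
  have hZ := Ex_one_pos (J := J) (N := N) β h
  rw [mN, le_div_iff₀ (by positivity), mag_eq, MagV, Ex_sum]
  refine le_trans (le_of_eq ?_) (Finset.sum_le_sum fun x _ => Ex_Z_ge (KB_herm β h) x)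
  rw [Finset.sum_const, Finset.card_univ, nsmul_eq_mul, card_box]
  ring

theorem presN_lip {β : ℝ} (hβ : 0 < β) (h : ℝ) :
    |presN J N β h - presN J N β 0| ≤ |h| * (J / 2) := by
  have h1 := PB_N (J := J) (N := N) hβ 0 h
  have h2 := PB_N (J := J) (N := N) hβ h 0
  have a1 : |h * mN J N β 0| ≤ |h| * (J / 2) := by
    rw [abs_mul]
    exact mul_le_mul_of_nonneg_left (abs_le.mpr ⟨mN_ge β 0, mN_le β 0⟩) (abs_nonneg _)
  have a2 : |h * mN J N β h| ≤ |h| * (J / 2) := by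
    rw [abs_mul]
    exact mul_le_mul_of_nonneg_left (abs_le.mpr ⟨mN_ge β h, mN_le β h⟩) (abs_nonneg _)
  rw [abs_le] at a1 a2 ⊢
  constructor <;> nlinarith [a1.1, a1.2, a2.1, a2.2]

theorem Ex_KE {V ε : Type} [Fintype V] [DecidableEq V] (K : Matrix (Conf J V) (Conf J V) ℂ)
    (E : Finset ε) (a b : ε → V) (β h : ℝ) :
    Ex K (KE J E a b β h)
      = β * (-(∑ e ∈ E, Ex K (dotSS J (a e) (b e))) - h * Ex K (MagV J V)) := by
  have hneg : ∀ X : Matrix (Conf J V) (Conf J V) ℂ, Ex K (-X) = -Ex K X := by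
    intro X
    have := Ex_smul K X (-1)
    simpa using this
  rw [KE, Ex_smul, Ex_sub, HamE, hneg, Ex_sum, Ex_smul]

theorem Ex_zero_one : Ex (0 : Matrix (Conf J (Box N)) (Conf J (Box N)) ℂ) 1
    = ((J : ℝ) + 1) ^ (2 * N + 1) ^ 3 := by
  rw [Ex, Matrix.one_mul, neg_zero, NormedSpace.exp_zero, Matrix.trace_one, Complex.natCast_re]
  simp [Conf, Box]

theorem card_EBox_le : ((EBox N).card : ℝ) ≤ 3 * vol N := by
  have := sum_EBox_le (N := N) (fun _ => 1) (fun _ => zero_le_one)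
  simp only [Finset.sum_const, nsmul_eq_mul, mul_one, Finset.card_univ, Fintype.card_fin] at this
  rw [vol]
  push_cast at this ⊢
  linarith

theorem presN_zero_le {β : ℝ} (hβ : 0 < β) :
    presN J N β 0 ≤ Real.log (J + 1) / β + 3 * ((J : ℝ) ^ 2 / 4) := by
  have hv := vol_pos N
  have hK := KB_herm (J := J) (N := N) β 0
  have hpb := peierls_bogoliubov hK.neg (Matrix.isHermitian_zero (n := Conf J (Box N)) (α := ℂ))
  have e1 : (NormedSpace.exp (-KB J N β 0)).trace.re = Ex (KB J N β 0) 1 := by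
    rw [Ex, Matrix.one_mul]
  have e2 : (NormedSpace.exp (0 : Matrix (Conf J (Box N)) (Conf J (Box N)) ℂ)).trace.re
      = ((J : ℝ) + 1) ^ (2 * N + 1) ^ 3 := by
    have := Ex_zero_one (J := J) (N := N)
    rwa [Ex, Matrix.one_mul, neg_zero] at this
  have e3 : ((0 - -KB J N β 0) * NormedSpace.exp (-KB J N β 0)).trace.re
      = Ex (KB J N β 0) (KB J N β 0) := by rw [zero_sub, neg_neg]; rfl
  rw [e1, e2, e3, Real.log_pow] at hpb
  have hZ := Ex_one_pos (J := J) (N := N) β 0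
  have e4 : -(β * (3 * vol N * ((J : ℝ) ^ 2 / 4 * Ex (KB J N β 0) 1)))
      ≤ Ex (KB J N β 0) (KB J N β 0) := by
    have : Ex (KB J N β 0) (KB J N β 0)
        = β * (-(∑ e ∈ EBox N, Ex (KB J N β 0) (dotSS J e.2.1 e.2.2))
          - 0 * Ex (KB J N β 0) (MagV J (Box N))) := by
      have := Ex_KE (J := J) (KB J N β 0) (EBox N) (fun e => e.2.1) (fun e => e.2.2) β 0
      rwa [← KB_eq] at this
    rw [this]
    have h5 : ∑ e ∈ EBox N, Ex (KB J N β 0) (dotSS J e.2.1 e.2.2)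
        ≤ 3 * vol N * ((J : ℝ) ^ 2 / 4 * Ex (KB J N β 0) 1) := by
      refine (Finset.sum_le_sum fun e he => Ex_dot_le hK (EBox_ne e he)).trans ?_
      rw [Finset.sum_const, nsmul_eq_mul]
      exact mul_le_mul_of_nonneg_right card_EBox_le (mul_nonneg (by positivity) hZ.le)
    have h6 := mul_le_mul_of_nonneg_left h5 hβ.le
    rw [zero_mul, sub_zero, mul_neg]
    exact neg_le_neg h6
  rw [presN_eq]
  have e6 : Ex (KB J N β 0) (KB J N β 0) / Ex (KB J N β 0) 1 ≥ -(β * (3 * vol N * ((J : ℝ) ^ 2 / 4))) := by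
    rw [ge_iff_le, le_div_iff₀ hZ]; linarith
  have e7 : Real.log (Ex (KB J N β 0) 1)
      ≤ ((2 * N + 1) ^ 3 : ℕ) * Real.log (J + 1) + β * (3 * vol N * ((J : ℝ) ^ 2 / 4)) := by
    linarith
  have e8 : (((2 * N + 1) ^ 3 : ℕ) : ℝ) = vol N := by rw [vol]; push_cast; ring
  rw [e8] at e7
  calc 1 / (β * vol N) * Real.log (Ex (KB J N β 0) 1)
      ≤ 1 / (β * vol N) * (vol N * Real.log (J + 1) + β * (3 * vol N * ((J : ℝ) ^ 2 / 4))) :=
        mul_le_mul_of_nonneg_left e7 (by positivity)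
    _ = _ := by field_simp

theorem presN_zero_ge {β : ℝ} (hβ : 0 < β) :
    -(3 * ((J : ℝ) ^ 2 / 4)) ≤ presN J N β 0 := by
  have hv := vol_pos N
  have hK := KB_herm (J := J) (N := N) β 0
  have h0 := Matrix.isHermitian_zero (n := Conf J (Box N)) (α := ℂ)
  have hpb := peierls_bogoliubov h0 hK.neg
  have e1 : (NormedSpace.exp (-KB J N β 0)).trace.re = Ex (KB J N β 0) 1 := by
    rw [Ex, Matrix.one_mul]
  have e2 : (NormedSpace.exp (0 : Matrix (Conf J (Box N)) (Conf J (Box N)) ℂ)).trace.re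
      = Ex (0 : Matrix (Conf J (Box N)) (Conf J (Box N)) ℂ) 1 := by
    rw [Ex, Matrix.one_mul, neg_zero]
  have hD : 0 < Ex (0 : Matrix (Conf J (Box N)) (Conf J (Box N)) ℂ) 1 := by
    rw [Ex_zero_one]; positivity
  have hD1 : 1 ≤ Ex (0 : Matrix (Conf J (Box N)) (Conf J (Box N)) ℂ) 1 := by
    rw [Ex_zero_one]
    exact one_le_pow₀ (by have : (0 : ℝ) ≤ J := by positivity
                          linarith)
  have e3 : ((-KB J N β 0 - 0) * NormedSpace.exp (0 : Matrix (Conf J (Box N)) (Conf J (Box N)) ℂ)).trace.re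
      = β * ∑ e ∈ EBox N, Ex 0 (dotSS J e.2.1 e.2.2) := by
    have : ((-KB J N β 0 - 0) * NormedSpace.exp (0 : Matrix (Conf J (Box N)) (Conf J (Box N)) ℂ)).trace.re
        = Ex 0 (-KB J N β 0) := by rw [sub_zero, Ex, neg_zero]
    rw [this, KB, Complex.ofReal_zero, zero_smul, sub_zero, ham_eq, HamE, smul_neg, neg_neg,
      Ex_smul, Ex_sum]
  rw [e1, e2, e3] at hpb
  have e4 : ∀ e ∈ EBox N, -((J : ℝ) ^ 2 / 4 * Ex (0 : Matrix (Conf J (Box N)) (Conf J (Box N)) ℂ) 1)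
      ≤ Ex 0 (dotSS J e.2.1 e.2.2) := by
    intro e he
    have hN : NNM ((((1 / 2 : ℝ) : ℂ)) • (P J e.2.1 * Mi J e.2.2 + Mi J e.2.1 * P J e.2.2)
        : Matrix (Conf J (Box N)) (Conf J (Box N)) ℂ) :=
      (((NNM_sPlus J).on e.2.1 |>.mul ((NNM_sPlus J).conj.on e.2.2)).add
        (((NNM_sPlus J).conj.on e.2.1).mul ((NNM_sPlus J).on e.2.2))).smul (by norm_num)
    have h1 : Ex 0 (((1 / 2 : ℝ) : ℂ) • (P J e.2.1 * Mi J e.2.2 + Mi J e.2.1 * P J e.2.2)
        : Matrix (Conf J (Box N)) (Conf J (Box N)) ℂ) ≥ 0 := by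
      rw [Ex, neg_zero, NormedSpace.exp_zero, Matrix.mul_one, Matrix.trace, Complex.re_sum]
      refine Finset.sum_nonneg fun i _ => ?_
      obtain ⟨r, hr, hr2⟩ := hN i i
      rw [Matrix.diag_apply, hr2, Complex.ofReal_re]; exact hr
    have h2 : -((J : ℝ) ^ 2 / 4 * Ex (0 : Matrix (Conf J (Box N)) (Conf J (Box N)) ℂ) 1)
        ≤ Ex 0 (Z3 J e.2.1 * Z3 J e.2.2) := by
      have h : (((J : ℝ) ^ 2 / 4 : ℝ) : ℂ) • (1 : Matrix (Conf J (Box N)) (Conf J (Box N)) ℂ)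
          + Z3 J e.2.1 * Z3 J e.2.2 = diagonal fun σ : Conf J (Box N) => (((J : ℝ) ^ 2 / 4
            + ((J : ℝ) / 2 - ((σ e.2.1 : ℕ) : ℝ)) * ((J : ℝ) / 2 - ((σ e.2.2 : ℕ) : ℝ)) : ℝ) : ℂ) := by
        rw [Z3_eq, Z3_eq, Matrix.diagonal_mul_diagonal, ← Matrix.diagonal_one,
          ← Matrix.diagonal_smul, Matrix.diagonal_add]
        congr 1; funext σ
        simp only [Pi.smul_apply, smul_eq_mul, mul_one]; push_cast; ring
      have h2 := Ex_diag_nonneg h0 (d := fun σ : Conf J (Box N) => (J : ℝ) ^ 2 / 4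
            + ((J : ℝ) / 2 - ((σ e.2.1 : ℕ) : ℝ)) * ((J : ℝ) / 2 - ((σ e.2.2 : ℕ) : ℝ))) (fun σ => by
        have h1 := cast_le (σ e.2.1)
        have h2 := cast_le (σ e.2.2)
        have h3 : (0 : ℝ) ≤ ((σ e.2.1 : ℕ) : ℝ) := by positivity
        have h4 : (0 : ℝ) ≤ ((σ e.2.2 : ℕ) : ℝ) := by positivity
        have h5 : |((J : ℝ) / 2 - ((σ e.2.1 : ℕ) : ℝ))| ≤ J / 2 := by rw [abs_le]; constructor <;> linarith
        have h6 : |((J : ℝ) / 2 - ((σ e.2.2 : ℕ) : ℝ))| ≤ J / 2 := by rw [abs_le]; constructor <;> linarith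
        have h7 := mul_le_mul h5 h6 (abs_nonneg _) (by positivity)
        rw [← abs_mul] at h7
        have h8 := neg_abs_le (((J : ℝ) / 2 - ((σ e.2.1 : ℕ) : ℝ)) * ((J : ℝ) / 2 - ((σ e.2.2 : ℕ) : ℝ)))
        nlinarith)
      rw [← h, Ex_add, Ex_smul] at h2
      linarith
    rw [dot_eq, Ex_add]
    have h3 : ((1 / 2 : ℝ) : ℂ) = (1 / 2 : ℂ) := by norm_num
    rw [h3] at h1
    linarith
  have e5 : -(3 * vol N * ((J : ℝ) ^ 2 / 4 * Ex (0 : Matrix (Conf J (Box N)) (Conf J (Box N)) ℂ) 1))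
      ≤ ∑ e ∈ EBox N, Ex 0 (dotSS J e.2.1 e.2.2) := by
    refine le_trans ?_ (Finset.sum_le_sum e4)
    rw [Finset.sum_const, nsmul_eq_mul, mul_neg]
    exact neg_le_neg (mul_le_mul_of_nonneg_right card_EBox_le (by positivity))
  rw [presN_eq]
  set D := Ex (0 : Matrix (Conf J (Box N)) (Conf J (Box N)) ℂ) 1 with hDdef
  have e6 : -(β * (3 * vol N * ((J : ℝ) ^ 2 / 4)))
      ≤ β * (∑ e ∈ EBox N, Ex 0 (dotSS J e.2.1 e.2.2)) / D := by
    rw [le_div_iff₀ hD]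
    have := mul_le_mul_of_nonneg_left e5 hβ.le
    linarith
  have e7 : 0 ≤ Real.log D := Real.log_nonneg hD1
  have e8 : -(β * (3 * vol N * ((J : ℝ) ^ 2 / 4))) ≤ Real.log (Ex (KB J N β 0) 1) := by linarith
  calc -(3 * ((J : ℝ) ^ 2 / 4)) = 1 / (β * vol N) * (-(β * (3 * vol N * ((J : ℝ) ^ 2 / 4)))) := by
        field_simp
    _ ≤ _ := mul_le_mul_of_nonneg_left e8 (by positivity)

end Vale.Agent.H29.Bloch
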