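import Vale.Agent.H29.Bloch.Gibbs
import Vale.Agent.H29.BlochDefs.Defs

set_option linter.unusedSectionVars false
set_option linter.unusedSimpArgs false

namespace Vale.Agent.H29.Bloch

open Matrix Finset Vale.Agent.H29.BlochDefs

section On

variable {J : ℕ} {V : Type} [Fintype V] [DecidableEq V]

theorem on_mul_apply (x : V) (A : Matrix (Fin (J + 1)) (Fin (J + 1)) ℂ)
    (M : Matrix (Conf J V) (Conf J V) ℂ) (σ τ : Conf J V) :
    (onSite x A * M) σ τ = ∑ a, A (σ x) a * M (Function.update σ x a) τ := by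
  rw [Matrix.mul_apply]
  symm
  refine Finset.sum_of_injOn (fun a => Function.update σ x a) ?_ (fun _ _ => by simp) ?_ ?_
  · intro a _ b _ h
    have := congrFun h x
    simpa using this
  · intro ρ _ hρ
    have : ¬ ∀ y, y ≠ x → σ y = ρ y := by
      intro h
      apply hρ
      refine ⟨ρ x, by simp, ?_⟩
      funext y
      by_cases hy : y = x
      · subst hy; simp
      · simp [hy, h y hy]
    simp [onSite, this]
  · intro a _
    have : ∀ y, y ≠ x → σ y = Function.update σ x a y := by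
      intro y hy; simp [hy]
    simp only [onSite]
    rw [if_pos this]
    simp

theorem on_mul (x : V) (A B : Matrix (Fin (J + 1)) (Fin (J + 1)) ℂ) :
    onSite x A * onSite x B = (onSite x (A * B) : Matrix (Conf J V) (Conf J V) ℂ) := by
  ext σ τ
  rw [on_mul_apply]
  simp only [onSite, Matrix.mul_apply]
  have h : ∀ a, (∀ y, y ≠ x → Function.update σ x a y = τ y) ↔ (∀ y, y ≠ x → σ y = τ y) := by
    intro a
    constructor
    · intro h y hy; have := h y hy; rwa [Function.update_of_ne hy] at this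
    · intro h y hy; rw [Function.update_of_ne hy]; exact h y hy
  simp only [h, Function.update_self]
  by_cases h2 : ∀ y, y ≠ x → σ y = τ y
  · simp only [if_pos h2]
  · simp only [if_neg h2, mul_zero, Finset.sum_const_zero]

theorem on_comm {x y : V} (hxy : x ≠ y) (A B : Matrix (Fin (J + 1)) (Fin (J + 1)) ℂ) :
    onSite x A * onSite y B = (onSite y B * onSite x A : Matrix (Conf J V) (Conf J V) ℂ) := by
  have key : ∀ {x y : V} (_ : x ≠ y) (A B : Matrix (Fin (J + 1)) (Fin (J + 1)) ℂ)
      (σ τ : Conf J V), (onSite x A * onSite y B : Matrix (Conf J V) (Conf J V) ℂ) σ τ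
        = if ∀ z, z ≠ x → z ≠ y → σ z = τ z then A (σ x) (τ x) * B (σ y) (τ y) else 0 := by
    intro x y hxy A B σ τ
    rw [on_mul_apply, Finset.sum_eq_single (τ x)]
    · simp only [onSite]
      by_cases h : ∀ z, z ≠ x → z ≠ y → σ z = τ z
      · rw [if_pos h, if_pos]
        · rw [Function.update_of_ne (Ne.symm hxy)]
        · intro z hz
          by_cases hzx : z = x
          · subst hzx; simp
          · rw [Function.update_of_ne hzx]; exact h z hzx hz
      · rw [if_neg h, if_neg, mul_zero]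
        intro h'
        apply h
        intro z hzx hzy
        have := h' z hzy
        rwa [Function.update_of_ne hzx] at this
    · intro a _ ha
      simp only [onSite]
      rw [if_neg, mul_zero]
      intro h'
      have := h' x hxy
      rw [Function.update_self] at this
      exact ha this
    · simp
  ext σ τ
  rw [key hxy, key (Ne.symm hxy)]
  have : (∀ z, z ≠ x → z ≠ y → σ z = τ z) ↔ (∀ z, z ≠ y → z ≠ x → σ z = τ z) :=
    ⟨fun h z h1 h2 => h z h2 h1, fun h z h1 h2 => h z h2 h1⟩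
  simp only [this]
  split_ifs
  · ring
  · rfl

theorem on_conjTranspose (x : V) (A : Matrix (Fin (J + 1)) (Fin (J + 1)) ℂ) :
    (onSite x A : Matrix (Conf J V) (Conf J V) ℂ)ᴴ = onSite x Aᴴ := by
  ext σ τ
  simp only [Matrix.conjTranspose_apply, onSite]
  have : (∀ y, y ≠ x → τ y = σ y) ↔ (∀ y, y ≠ x → σ y = τ y) :=
    ⟨fun h y hy => (h y hy).symm, fun h y hy => (h y hy).symm⟩
  simp only [this]
  split_ifs <;> simp

theorem on_add (x : V) (A B : Matrix (Fin (J + 1)) (Fin (J + 1)) ℂ) :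
    (onSite x (A + B) : Matrix (Conf J V) (Conf J V) ℂ) = onSite x A + onSite x B := by
  ext σ τ
  simp only [onSite, Matrix.add_apply]
  split_ifs <;> simp

theorem on_sub (x : V) (A B : Matrix (Fin (J + 1)) (Fin (J + 1)) ℂ) :
    (onSite x (A - B) : Matrix (Conf J V) (Conf J V) ℂ) = onSite x A - onSite x B := by
  ext σ τ
  simp only [onSite, Matrix.sub_apply]
  split_ifs <;> simp

theorem on_smul (x : V) (c : ℂ) (A : Matrix (Fin (J + 1)) (Fin (J + 1)) ℂ) :
    (onSite x (c • A) : Matrix (Conf J V) (Conf J V) ℂ) = c • onSite x A := by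
  ext σ τ
  simp only [onSite, Matrix.smul_apply]
  split_ifs <;> simp

theorem on_diagonal (x : V) (d : Fin (J + 1) → ℂ) :
    (onSite x (diagonal d) : Matrix (Conf J V) (Conf J V) ℂ) = diagonal (fun σ => d (σ x)) := by
  ext σ τ
  simp only [onSite, Matrix.diagonal_apply]
  by_cases h : σ = τ
  · subst h; simp
  · rw [if_neg h]
    split_ifs with h1 h2
    · exfalso
      apply h
      funext y
      by_cases hy : y = x
      · subst hy; exact h2
      · exact h1 y hy
    · rfl
    · rfl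

end On

section Single

variable (J : ℕ)

/-- square of the ladder coefficient -/
theorem ladder_sq {j : ℕ} (hj : j ≤ J + 1) :
    ((Real.sqrt ((j : ℝ) * ((J : ℝ) + 1 - (j : ℝ))) : ℝ) : ℂ)
      * ((Real.sqrt ((j : ℝ) * ((J : ℝ) + 1 - (j : ℝ))) : ℝ) : ℂ)
      = (((j : ℝ) * ((J : ℝ) + 1 - (j : ℝ)) : ℝ) : ℂ) := by
  rw [← Complex.ofReal_mul, Real.mul_self_sqrt]
  have : (j : ℝ) ≤ J + 1 := by exact_mod_cast hj
  exact mul_nonneg (by positivity) (by linarith)

theorem minus_plus : (sPlus J)ᴴ * sPlus J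
    = diagonal fun a : Fin (J + 1) =>
      ((((a : ℕ) : ℝ) * ((J : ℝ) + 1 - ((a : ℕ) : ℝ)) : ℝ) : ℂ) := by
  ext j k
  rw [Matrix.mul_apply, Matrix.diagonal_apply]
  simp only [Matrix.conjTranspose_apply, sPlus]
  by_cases hjk : j = k
  · subst hjk
    rw [if_pos rfl]
    by_cases hj : (j : ℕ) = 0
    · rw [Finset.sum_eq_zero]
      · simp [hj]
      · intro i _
        have : ¬ ((i : ℕ) + 1 = (j : ℕ)) := by omega
        simp [this]
    · rw [Finset.sum_eq_single (⟨(j : ℕ) - 1, by omega⟩ : Fin (J + 1))]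
      · have : (j : ℕ) - 1 + 1 = (j : ℕ) := by omega
        simp only [this, if_true]
        rw [← ladder_sq J (by omega : (j : ℕ) ≤ J + 1)]
        simp
      · intro i _ hi
        have : ¬ ((i : ℕ) + 1 = (j : ℕ)) := by
          intro h; apply hi; ext; simp; omega
        simp [this]
      · simp
  · rw [if_neg hjk]
    refine Finset.sum_eq_zero fun i _ => ?_
    by_cases h1 : (i : ℕ) + 1 = (j : ℕ)
    · have h2 : ¬ ((i : ℕ) + 1 = (k : ℕ)) := by
        intro h; apply hjk; ext; omega
      simp [h2]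
    · simp [h1]

theorem plus_minus : sPlus J * (sPlus J)ᴴ
    = diagonal fun a : Fin (J + 1) =>
      (((((a : ℕ) : ℝ) + 1) * ((J : ℝ) - ((a : ℕ) : ℝ)) : ℝ) : ℂ) := by
  ext j k
  rw [Matrix.mul_apply, Matrix.diagonal_apply]
  simp only [Matrix.conjTranspose_apply, sPlus]
  by_cases hjk : j = k
  · subst hjk
    rw [if_pos rfl]
    by_cases hj : (j : ℕ) = J
    · rw [Finset.sum_eq_zero]
      · simp [hj]
      · intro i _
        have : ¬ ((j : ℕ) + 1 = (i : ℕ)) := by omega
        simp [this]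
    · rw [Finset.sum_eq_single (⟨(j : ℕ) + 1, by omega⟩ : Fin (J + 1))]
      · simp only [if_true]
        have := ladder_sq J (by omega : (j : ℕ) + 1 ≤ J + 1)
        simp only [Complex.star_def, Complex.conj_ofReal]
        rw [this]
        congr 1
        push_cast; ring
      · intro i _ hi
        have : ¬ ((j : ℕ) + 1 = (i : ℕ)) := by
          intro h; apply hi; ext; simp; omega
        simp [this]
      · simp
  · rw [if_neg hjk]
    refine Finset.sum_eq_zero fun i _ => ?_
    by_cases h1 : (j : ℕ) + 1 = (i : ℕ)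
    · have h2 : ¬ ((k : ℕ) + 1 = (i : ℕ)) := by
        intro h; apply hjk; ext; omega
      simp [h2]
    · simp [h1]

theorem comm_pm : sPlus J * (sPlus J)ᴴ - (sPlus J)ᴴ * sPlus J = (2 : ℂ) • s3 J := by
  rw [plus_minus, minus_plus, s3, Matrix.diagonal_sub, ← Matrix.diagonal_smul]
  congr 1
  funext a
  simp only [Pi.smul_apply, smul_eq_mul, ← Complex.ofReal_sub]
  push_cast; ring

theorem comm_3p : s3 J * sPlus J - sPlus J * s3 J = sPlus J := by
  ext i j
  rw [Matrix.sub_apply, s3, Matrix.diagonal_mul, Matrix.mul_diagonal]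
  simp only [sPlus]
  split_ifs with h
  · have : ((j : ℕ) : ℂ) = ((i : ℕ) : ℂ) + 1 := by exact_mod_cast h.symm
    push_cast
    rw [this]
    ring
  · simp

theorem s3_herm : (s3 J)ᴴ = s3 J := by
  rw [s3, Matrix.diagonal_conjTranspose]
  congr 1; funext a; simp

theorem comm_3m : s3 J * (sPlus J)ᴴ - (sPlus J)ᴴ * s3 J = -(sPlus J)ᴴ := by
  have h := congrArg Matrix.conjTranspose (comm_3p J)
  rw [Matrix.conjTranspose_sub, Matrix.conjTranspose_mul, Matrix.conjTranspose_mul, s3_herm] at h
  rw [← neg_sub, h]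

end Single

section Ops

variable {J : ℕ} {V : Type} [Fintype V] [DecidableEq V]

noncomputable def P (J : ℕ) {V : Type} [Fintype V] [DecidableEq V] (x : V) :
    Matrix (Conf J V) (Conf J V) ℂ := onSite x (sPlus J)
noncomputable def Mi (J : ℕ) {V : Type} [Fintype V] [DecidableEq V] (x : V) :
    Matrix (Conf J V) (Conf J V) ℂ := onSite x (sPlus J)ᴴ
noncomputable def Z3 (J : ℕ) {V : Type} [Fintype V] [DecidableEq V] (x : V) :
    Matrix (Conf J V) (Conf J V) ℂ := onSite x (s3 J)

theorem P_conj (x : V) : (P J x)ᴴ = Mi J x := on_conjTranspose x _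
theorem Mi_conj (x : V) : (Mi J x)ᴴ = P J x := by
  rw [Mi, on_conjTranspose, conjTranspose_conjTranspose, P]
theorem Z3_conj (x : V) : (Z3 J x)ᴴ = Z3 J x := by rw [Z3, on_conjTranspose, s3_herm]

theorem PM_comm (x : V) : P J x * Mi J x - Mi J x * P J x = (2 : ℂ) • Z3 J x := by
  rw [P, Mi, Z3, on_mul, on_mul, ← on_sub, comm_pm, on_smul]
theorem ZP_comm (x : V) : Z3 J x * P J x - P J x * Z3 J x = P J x := by
  rw [P, Z3, on_mul, on_mul, ← on_sub, comm_3p]
theorem ZM_comm (x : V) : Z3 J x * Mi J x - Mi J x * Z3 J x = -Mi J x := by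
  rw [Mi, Z3, on_mul, on_mul, ← on_sub, comm_3m]
  have := on_smul (J := J) x (-1) (sPlus J)ᴴ
  simpa using this

theorem dot_eq {x y : V} : dotSS J x y
    = Z3 J x * Z3 J y + (1 / 2 : ℂ) • (P J x * Mi J y + Mi J x * P J y) := by
  have hI : (1 / (2 * Complex.I) : ℂ) * (1 / (2 * Complex.I)) = -(1 / 4) := by
    rw [div_mul_div_comm, mul_mul_mul_comm, Complex.I_mul_I]; norm_num
  have e1 : (onSite x (s1 J) : Matrix (Conf J V) (Conf J V) ℂ) = (1 / 2 : ℂ) • (P J x + Mi J x) := by
    rw [s1, on_smul, on_add, P, Mi]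
  have e1' : (onSite y (s1 J) : Matrix (Conf J V) (Conf J V) ℂ) = (1 / 2 : ℂ) • (P J y + Mi J y) := by
    rw [s1, on_smul, on_add, P, Mi]
  have e2 : (onSite x (s2 J) : Matrix (Conf J V) (Conf J V) ℂ)
      = (1 / (2 * Complex.I) : ℂ) • (P J x - Mi J x) := by
    rw [s2, on_smul, on_sub, P, Mi]
  have e2' : (onSite y (s2 J) : Matrix (Conf J V) (Conf J V) ℂ)
      = (1 / (2 * Complex.I) : ℂ) • (P J y - Mi J y) := by
    rw [s2, on_smul, on_sub, P, Mi]
  rw [dotSS, e1, e1', e2, e2', smul_mul_smul_comm, smul_mul_smul_comm, hI]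
  rw [add_comm _ (onSite x (s3 J) * onSite y (s3 J))]
  congr 1
  simp only [add_mul, mul_add, sub_mul, mul_sub]
  module

end Ops

end Vale.Agent.H29.Bloch
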