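import Vale.Agent.H29.Bloch.Edge

set_option linter.unusedSectionVars false
set_option linter.unusedSimpArgs false

namespace Vale.Agent.H29.Bloch

open Matrix Finset Vale.Agent.H29.BlochDefs

section General

variable {ι : Type} [Fintype ι] [DecidableEq ι]

/-- unnormalised Gibbs functional -/
noncomputable def Ex (K X : Matrix ι ι ℂ) : ℝ := (X * NormedSpace.exp (-K)).trace.re

theorem Ex_add (K X Y : Matrix ι ι ℂ) : Ex K (X + Y) = Ex K X + Ex K Y := by
  rw [Ex, Matrix.add_mul, Matrix.trace_add, Complex.add_re]; rfl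

theorem Ex_sub (K X Y : Matrix ι ι ℂ) : Ex K (X - Y) = Ex K X - Ex K Y := by
  rw [Ex, Matrix.sub_mul, Matrix.trace_sub, Complex.sub_re]; rfl

theorem Ex_smul (K X : Matrix ι ι ℂ) (r : ℝ) : Ex K ((r : ℂ) • X) = r * Ex K X := by
  rw [Ex, Matrix.smul_mul, Matrix.trace_smul, smul_eq_mul, Complex.re_ofReal_mul]; rfl

theorem Ex_sum {κ : Type} (K : Matrix ι ι ℂ) (s : Finset κ) (f : κ → Matrix ι ι ℂ) :
    Ex K (∑ k ∈ s, f k) = ∑ k ∈ s, Ex K (f k) := by
  rw [Ex, Finset.sum_mul, Matrix.trace_sum, Complex.re_sum]; rfl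

theorem Ex_conj {K : Matrix ι ι ℂ} (hK : K.IsHermitian) (X : Matrix ι ι ℂ) :
    Ex K Xᴴ = Ex K X := by
  have hρ : (NormedSpace.exp (-K))ᴴ = NormedSpace.exp (-K) := (hK.neg).exp
  have : (Xᴴ * NormedSpace.exp (-K)).trace = star (X * NormedSpace.exp (-K)).trace := by
    rw [← Matrix.trace_conjTranspose, Matrix.conjTranspose_mul, hρ, Matrix.trace_mul_comm]
  rw [Ex, this, Ex]
  simp

theorem Ex_nonneg {K : Matrix ι ι ℂ} (hK : K.IsHermitian) {X : Matrix ι ι ℂ}
    (hX : ∀ φ : ι → ℂ, 0 ≤ (star φ ⬝ᵥ (X *ᵥ φ)).re) : 0 ≤ Ex K X := by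
  obtain ⟨U, κ, h1, h2, hKU⟩ := exists_diag hK.neg
  rw [Ex, hKU, exp_eq_conj h1 h2]
  have : (X * (U * diagonal (fun i => ((Real.exp (κ i) : ℝ) : ℂ)) * Uᴴ)).trace
      = ∑ i, (Uᴴ * X * U) i i * ((Real.exp (κ i) : ℝ) : ℂ) := by
    rw [← tr_mul_diag, Matrix.trace_mul_comm X, Matrix.mul_assoc, Matrix.mul_assoc,
      Matrix.trace_mul_comm U, Matrix.mul_assoc, Matrix.trace_mul_comm]
  rw [this, Complex.re_sum]
  refine Finset.sum_nonneg fun i _ => ?_
  rw [mul_comm, Complex.re_ofReal_mul]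
  refine mul_nonneg (Real.exp_pos _).le ?_
  have e : (Uᴴ * X * U) i i = star (fun j => U j i) ⬝ᵥ (X *ᵥ fun j => U j i) := by
    rw [Matrix.mul_assoc, Matrix.mul_apply]
    simp only [dotProduct, Matrix.conjTranspose_apply, Pi.star_apply, Matrix.mulVec,
      Matrix.mul_apply]
  rw [e]
  exact hX _

theorem diag_form {d : ι → ℝ} (hd : ∀ i, 0 ≤ d i) (φ : ι → ℂ) :
    0 ≤ (star φ ⬝ᵥ (diagonal (fun i => (d i : ℂ)) *ᵥ φ)).re := by
  simp only [dotProduct, Pi.star_apply, Matrix.mulVec_diagonal, Complex.re_sum]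
  refine Finset.sum_nonneg fun i _ => ?_
  have : star (φ i) * ((d i : ℂ) * φ i) = ((d i * ‖φ i‖ ^ 2 : ℝ) : ℂ) := by
    have := Complex.conj_mul' (φ i)
    push_cast
    rw [← this]
    show (starRingEnd ℂ) (φ i) * ((d i : ℂ) * φ i) = _
    ring
  rw [this, Complex.ofReal_re]
  exact mul_nonneg (hd i) (sq_nonneg _)

/-- Schur test with a positive null vector -/
theorem schur {x : ι → ι → ℝ} (hs : ∀ i j, x i j = x j i) (hoff : ∀ i j, i ≠ j → x i j ≤ 0)
    {v : ι → ℝ} (hv : ∀ i, 0 < v i) (h0 : ∀ i, ∑ j, x i j * v j = 0) (φ : ι → ℂ) :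
    0 ≤ (star φ ⬝ᵥ ((fun i j => (x i j : ℂ) : Matrix ι ι ℂ) *ᵥ φ)).re := by
  set ψ : ι → ℂ := fun i => φ i / v i with hψ
  have hφ : ∀ i, φ i = v i * ψ i := by
    intro i
    have : (v i : ℂ) ≠ 0 := by exact_mod_cast (hv i).ne'
    rw [hψ]; field_simp
  have e1 : (star φ ⬝ᵥ ((fun i j => (x i j : ℂ) : Matrix ι ι ℂ) *ᵥ φ)).re
      = ∑ i, ∑ j, x i j * v i * v j * (star (ψ i) * ψ j).re := by
    simp only [dotProduct, Pi.star_apply, Matrix.mulVec, Finset.mul_sum, Complex.re_sum]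
    refine Finset.sum_congr rfl fun i _ => Finset.sum_congr rfl fun j _ => ?_
    rw [hφ i, hφ j]
    have : star ((v i : ℂ) * ψ i) * ((x i j : ℂ) * ((v j : ℂ) * ψ j))
        = ((x i j * v i * v j : ℝ) : ℂ) * (star (ψ i) * ψ j) := by
      rw [star_mul']
      have : star ((v i : ℝ) : ℂ) = (v i : ℂ) := by simp
      rw [this]; push_cast; ring
    rw [this, Complex.re_ofReal_mul]
  have e2 : ∀ i j, (star (ψ i) * ψ j).re
      = (‖ψ i‖ ^ 2 + ‖ψ j‖ ^ 2 - ‖ψ i - ψ j‖ ^ 2) / 2 := by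
    intro i j
    have h := Complex.normSq_sub (ψ i) (ψ j)
    rw [Complex.normSq_eq_norm_sq, Complex.normSq_eq_norm_sq, Complex.normSq_eq_norm_sq] at h
    have h2 : (ψ i * (starRingEnd ℂ) (ψ j)).re = (star (ψ i) * ψ j).re := by
      simp [Complex.mul_re]
    rw [h2] at h
    linarith
  rw [e1]
  have z1 : ∑ i, ∑ j, x i j * v i * v j * ‖ψ i‖ ^ 2 = 0 := by
    refine Finset.sum_eq_zero fun i _ => ?_
    have : ∑ j, x i j * v i * v j * ‖ψ i‖ ^ 2 = v i * ‖ψ i‖ ^ 2 * ∑ j, x i j * v j := by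
      rw [Finset.mul_sum]; exact Finset.sum_congr rfl fun j _ => by ring
    rw [this, h0 i, mul_zero]
  have z2 : ∑ i, ∑ j, x i j * v i * v j * ‖ψ j‖ ^ 2 = 0 := by
    rw [Finset.sum_comm]
    refine Finset.sum_eq_zero fun j _ => ?_
    have : ∑ i, x i j * v i * v j * ‖ψ j‖ ^ 2 = v j * ‖ψ j‖ ^ 2 * ∑ i, x j i * v i := by
      rw [Finset.mul_sum]; exact Finset.sum_congr rfl fun i _ => by rw [hs i j]; ring
    rw [this, h0 j, mul_zero]
  have e3 : ∑ i, ∑ j, x i j * v i * v j * (star (ψ i) * ψ j).re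
      = (∑ i, ∑ j, x i j * v i * v j * ‖ψ i‖ ^ 2) / 2
        + (∑ i, ∑ j, x i j * v i * v j * ‖ψ j‖ ^ 2) / 2
        + ∑ i, ∑ j, (-(x i j)) * (v i * v j * ‖ψ i - ψ j‖ ^ 2 / 2) := by
    simp only [Finset.sum_div, ← Finset.sum_add_distrib]
    refine Finset.sum_congr rfl fun i _ => Finset.sum_congr rfl fun j _ => ?_
    rw [e2 i j]; ring
  rw [e3, z1, z2]
  simp only [zero_div, zero_add]
  refine Finset.sum_nonneg fun i _ => Finset.sum_nonneg fun j _ => ?_
  by_cases hij : i = j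
  · subst hij; simp
  · exact mul_nonneg (by linarith [hoff i j hij])
      (by have := hv i; have := hv j; positivity)

end General

section Coherent

variable {J : ℕ} {V : Type} [Fintype V] [DecidableEq V]

/-- coherent amplitudes -/
noncomputable def et (J : ℕ) (a : Fin (J + 1)) : ℝ := Real.sqrt (Nat.choose J a)

theorem et_pos (a : Fin (J + 1)) : 0 < et J a := by
  apply Real.sqrt_pos.mpr
  exact_mod_cast Nat.choose_pos (Nat.lt_succ_iff.mp a.2)

theorem plus_et (a : Fin (J + 1)) :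
    ∑ b, sPlus J a b * (et J b : ℂ) = (((J : ℝ) - (a : ℕ) : ℝ) : ℂ) * (et J a : ℂ) := by
  by_cases ha : (a : ℕ) = J
  · rw [Finset.sum_eq_zero]
    · simp [ha]
    · intro b _
      have : ¬ ((a : ℕ) + 1 = (b : ℕ)) := by omega
      simp [sPlus, this]
  · rw [Finset.sum_eq_single (⟨(a : ℕ) + 1, by omega⟩ : Fin (J + 1))]
    · simp only [sPlus, if_true, et]
      rw [← Complex.ofReal_mul, ← Complex.ofReal_mul]
      congr 1
      have h1 : (Nat.choose J ((a : ℕ) + 1) : ℝ) * ((a : ℕ) + 1) = Nat.choose J a * (J - (a : ℕ)) := by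
        have := Nat.choose_succ_right_eq J (a : ℕ)
        have h2 : ((J - (a : ℕ) : ℕ) : ℝ) = (J : ℝ) - (a : ℕ) := by
          rw [Nat.cast_sub (by omega)]
        rw [← h2]; exact_mod_cast this
      have hJ : (0 : ℝ) ≤ (J : ℝ) - (a : ℕ) := by
        have : ((a : ℕ) : ℝ) ≤ J := by exact_mod_cast Nat.lt_succ_iff.mp a.2
        linarith
      rw [← Real.sqrt_mul (by push_cast; nlinarith)]
      have h3 : (((a : ℕ) + 1 : ℕ) : ℝ) * ((J : ℝ) + 1 - (((a : ℕ) + 1 : ℕ) : ℝ))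
          * (Nat.choose J ((a : ℕ) + 1) : ℝ) = ((J : ℝ) - (a : ℕ)) ^ 2 * Nat.choose J a := by
        push_cast
        nlinarith [h1]
      rw [h3, Real.sqrt_mul (sq_nonneg _), Real.sqrt_sq hJ]
    · intro b _ hb
      have : ¬ ((a : ℕ) + 1 = (b : ℕ)) := by
        intro h; apply hb; ext; simp; omega
      simp [sPlus, this]
    · simp

theorem minus_et (a : Fin (J + 1)) :
    ∑ b, (sPlus J)ᴴ a b * (et J b : ℂ) = (((a : ℕ) : ℝ) : ℂ) * (et J a : ℂ) := by
  by_cases ha : (a : ℕ) = 0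
  · rw [Finset.sum_eq_zero]
    · simp [ha]
    · intro b _
      have : ¬ ((b : ℕ) + 1 = (a : ℕ)) := by omega
      simp [sPlus, Matrix.conjTranspose_apply, this]
  · obtain ⟨k, hk⟩ : ∃ k, (a : ℕ) = k + 1 := ⟨(a : ℕ) - 1, by omega⟩
    rw [Finset.sum_eq_single (⟨k, by omega⟩ : Fin (J + 1))]
    · simp only [sPlus, Matrix.conjTranspose_apply, et, hk, if_true]
      simp only [Complex.star_def, Complex.conj_ofReal]
      rw [← Complex.ofReal_mul, ← Complex.ofReal_mul]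
      congr 1
      have hkJ : k + 1 ≤ J := by have := a.2; omega
      have h1 : (Nat.choose J (k + 1) : ℝ) * (k + 1) = Nat.choose J k * (J - k) := by
        have := Nat.choose_succ_right_eq J k
        have h2 : ((J - k : ℕ) : ℝ) = (J : ℝ) - k := by
          rw [Nat.cast_sub (by omega)]
        rw [← h2]; exact_mod_cast this
      have hJ : (0 : ℝ) ≤ (J : ℝ) - k := by
        have : (k : ℝ) + 1 ≤ J := by exact_mod_cast hkJ
        linarith
      rw [← Real.sqrt_mul (by push_cast; nlinarith)]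
      have h3 : ((k + 1 : ℕ) : ℝ) * ((J : ℝ) + 1 - ((k + 1 : ℕ) : ℝ))
          * (Nat.choose J k : ℝ) = ((k + 1 : ℕ) : ℝ) ^ 2 * Nat.choose J (k + 1) := by
        push_cast
        nlinarith [h1]
      rw [h3, Real.sqrt_mul (sq_nonneg _), Real.sqrt_sq (by positivity)]
    · intro b _ hb
      have : ¬ ((b : ℕ) + 1 = (a : ℕ)) := by
        intro h; apply hb; ext; simp; omega
      simp [sPlus, Matrix.conjTranspose_apply, this]
    · simp

/-- product coherent vector -/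
noncomputable def cv (J : ℕ) (V : Type) [Fintype V] (σ : Conf J V) : ℝ := ∏ z : V, et J (σ z)

theorem cv_pos (σ : Conf J V) : 0 < cv J V σ := Finset.prod_pos fun z _ => et_pos _

theorem cv_update (x : V) (σ : Conf J V) (a : Fin (J + 1)) :
    cv J V (Function.update σ x a) = et J a * ∏ z ∈ univ.erase x, et J (σ z) := by
  rw [cv, ← Finset.mul_prod_erase univ _ (Finset.mem_univ x), Function.update_self]
  congr 1
  refine Finset.prod_congr rfl fun z hz => ?_
  rw [Function.update_of_ne (Finset.ne_of_mem_erase hz)]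

theorem on_cv (x : V) (A : Matrix (Fin (J + 1)) (Fin (J + 1)) ℂ) (f : Fin (J + 1) → ℂ)
    (h : ∀ a, ∑ b, A a b * (et J b : ℂ) = f a * (et J a : ℂ)) :
    (onSite x A : Matrix (Conf J V) (Conf J V) ℂ) *ᵥ (fun σ => (cv J V σ : ℂ))
      = fun σ => f (σ x) * (cv J V σ : ℂ) := by
  funext σ
  have e1 : ((onSite x A : Matrix (Conf J V) (Conf J V) ℂ) *ᵥ (fun σ => (cv J V σ : ℂ))) σ
      = ∑ a, A (σ x) a * (cv J V (Function.update σ x a) : ℂ) := by
    have := on_mul_apply x A (Matrix.of fun (τ : Conf J V) (_ : Conf J V) => (cv J V τ : ℂ)) σ σ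
    simp only [Matrix.mul_apply, Matrix.of_apply] at this
    rw [← this]
    rfl
  rw [e1]
  simp only [cv_update]
  have e2 : ∀ a, A (σ x) a * ((et J a * ∏ z ∈ univ.erase x, et J (σ z) : ℝ) : ℂ)
      = A (σ x) a * (et J a : ℂ) * ((∏ z ∈ univ.erase x, et J (σ z) : ℝ) : ℂ) := by
    intro a; push_cast; ring
  simp only [e2]
  rw [← Finset.sum_mul, h (σ x)]
  have e3 : cv J V σ = et J (σ x) * ∏ z ∈ univ.erase x, et J (σ z) := by
    have := cv_update x σ (σ x)
    rwa [Function.update_eq_self] at this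
  rw [e3]; push_cast; ring

end Coherent

end Vale.Agent.H29.Bloch
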